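import Mathlib

namespace Vale.Agent.P052

def gVec0 : List ℤ := [
  -1,
  0,
  -1,
  3,
  -1,
  1,
  -1,
  -1,
  -3,
  0,
  -1,
  3,
  -1,
  0,
  3,
  -1]

def gVec1 : List ℤ := [
  -3,
  0,
  3,
  -1,
  -1,
  -1,
  1,
  3,
  -1,
  -1,
  -1,
  3,
  -1,
  0,
  0,
  -1]

def gVec2 : List ℤ := [
  -1,
  1,
  1,
  -1,
  -1,
  -1,
  3,
  -3,
  3,
  -1,
  -1,
  -1,
  -1,
  -1,
  -1,
  -1]

def gVec3 : List ℤ := [
  -1,
  -1,
  -1,
  -1,
  -3,
  -1,
  3,
  -1,
  -1,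
  0,
  -1,
  -1,
  -1,
  -1,
  0,
  1]

def gVec4 : List ℤ := [
  -1,
  -1,
  3,
  -1,
  3,
  0,
  -1,
  -1,
  3,
  -1,
  3,
  -1,
  3,
  -1,
  -1,
  3]

def gVec5 : List ℤ := [
  0,
  -1,
  -1,
  1,
  -1,
  3,
  0,
  13,
  -1,
  -1,
  -1,
  0,
  -1,
  -1,
  0,
  -1]

def gVec6 : List ℤ := [
  0,
  3,
  -1,
  -1,
  3,
  3,
  -1,
  -1,
  3,
  -1,
  0,
  3,
  3,
  0,
  0,
  3]

def gVec7 : List ℤ := [
  3,
  -1,
  -1,
  -1,
  -1,
  3,
  -1,
  3,
  -1,
  -1,
  -1,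
  1,
  -1,
  0,
  3,
  -3]

def gVec8 : List ℤ := [
  3,
  -1,
  -1,
  -1,
  3,
  -1,
  -1,
  1,
  3,
  -1,
  -1,
  1,
  -1,
  3,
  -1,
  -1]

def gVec9 : List ℤ := [
  0,
  -1,
  3,
  -1,
  -1,
  -1,
  -1,
  3,
  -3,
  3,
  0,
  -1,
  -1,
  -1,
  1,
  3]

def gVec10 : List ℤ := [
  -1,
  0,
  1,
  -1,
  0,
  -1,
  0,
  -1,
  -1,
  -1,
  -1,
  0,
  -1,
  -1,
  0,
  -1]

def gVec11 : List ℤ := [
  -1,
  -1,
  3,
  -1,
  -1,
  -1,
  -1,
  0,
  -1,
  0,
  -1,
  3,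
  3,
  -1,
  0,
  -1]

def gVec12 : List ℤ := [
  -1,
  0,
  -1,
  -1,
  -1,
  3,
  -1,
  -1,
  3,
  -1,
  -1,
  0,
  -1,
  -3,
  -1,
  0]

def gVec13 : List ℤ := [
  -1,
  3,
  3,
  -1,
  1,
  -1,
  -1,
  3,
  -1,
  0,
  3,
  -1,
  3,
  -1,
  3,
  1]

def gVec14 : List ℤ := [
  3,
  -1,
  -1,
  0,
  -1,
  -1,
  -1,
  -1,
  -1,
  0,
  3,
  -1,
  -1,
  -1,
  -1,
  3]

def gVec15 : List ℤ := [
  -1,
  -1,
  -1,
  -1,
  0,
  -1,
  3,
  0,
  0,
  3,
  -1,
  -1,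
  3,
  -1,
  0,
  -1]

def gVec16 : List ℤ := [
  -1,
  3,
  3,
  -1,
  -1,
  -1,
  -1,
  -1,
  -1,
  3,
  -1,
  -1,
  0,
  -1,
  3,
  3]

def gVec17 : List ℤ := [
  0,
  3,
  -1,
  0,
  -1,
  -1,
  -1,
  -3,
  0,
  -3,
  -1,
  -1,
  -1,
  -1,
  3,
  -1]

def gVec18 : List ℤ := [
  -1,
  -1,
  -1,
  3,
  -1,
  -1,
  -1,
  3,
  0,
  1,
  -1,
  -1,
  3,
  -1,
  3,
  -1]

def gVec19 : List ℤ := [
  0,
  -1,
  3,
  -1,
  -1,
  -1,
  -1,
  3,
  -1,
  3,
  -1,
  3,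
  1,
  3,
  -1,
  0]

def gVec20 : List ℤ := [
  3,
  -1,
  -1,
  1,
  0,
  1,
  -1,
  -1,
  0,
  1,
  0,
  3,
  0,
  0,
  3,
  -1]

def gVec21 : List ℤ := [
  -1,
  -1,
  -3,
  -1,
  -1,
  -1,
  -1,
  -1,
  3,
  -1,
  -1,
  -1,
  -1,
  0,
  -1,
  -1]

def gVec22 : List ℤ := [
  1,
  -1,
  0,
  -1,
  -1,
  3,
  0,
  -1,
  -1,
  -1,
  -1,
  -1,
  -1,
  -1,
  -1,
  -1]

def gVec23 : List ℤ := [
  -1,
  3,
  0,
  -1,
  0,
  3,
  -1,
  -1,
  0,
  -1,
  -1,
  1,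
  -1,
  -1,
  -1,
  -3]

def gVec24 : List ℤ := [
  0,
  0,
  -1,
  -1,
  3,
  -1,
  -1,
  -1,
  0,
  0,
  -1,
  -1,
  -1,
  -1,
  0,
  -1]

def gVec25 : List ℤ := [
  -1,
  3,
  -1,
  -1,
  0,
  3,
  -1,
  3,
  0,
  -1,
  -1,
  0,
  3,
  -1,
  -1,
  -1]

def gVecTab : List (List ℤ) := [gVec0, gVec1, gVec2, gVec3, gVec4, gVec5, gVec6, gVec7, gVec8, gVec9, gVec10, gVec11, gVec12, gVec13, gVec14, gVec15, gVec16, gVec17, gVec18, gVec19, gVec20, gVec21, gVec22, gVec23, gVec24, gVec25]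

def wOne0 : List ℤ := [
  0,
  1,
  0,
  0,
  0,
  0,
  0,
  0,
  0,
  -1,
  0,
  0,
  0,
  -1,
  0,
  0]

def wOne1 : List ℤ := [
  0,
  -1,
  0,
  0,
  0,
  0,
  0,
  0,
  0,
  0,
  0,
  0,
  0,
  1,
  1,
  0]

def wOne2 : List ℤ := [
  0,
  0,
  0,
  0,
  0,
  0,
  0,
  0,
  0,
  0,
  0,
  0,
  0,
  0,
  0,
  0]

def wOne3 : List ℤ := [
  0,
  0,
  0,
  0,
  0,
  0,
  0,
  0,
  0,
  -1,
  0,
  0,
  0,
  0,
  1,
  0]

def wOne4 : List ℤ := [
  0,
  0,
  0,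
  0,
  0,
  1,
  0,
  0,
  0,
  0,
  0,
  0,
  0,
  0,
  0,
  0]

def wOne5 : List ℤ := [
  1,
  0,
  0,
  0,
  0,
  0,
  1,
  0,
  0,
  0,
  0,
  -1,
  0,
  0,
  1,
  0]

def wOne6 : List ℤ := [
  1,
  0,
  0,
  0,
  0,
  0,
  0,
  0,
  0,
  0,
  -1,
  0,
  0,
  1,
  1,
  0]

def wOne7 : List ℤ := [
  0,
  0,
  0,
  0,
  0,
  0,
  0,
  0,
  0,
  0,
  0,
  0,
  0,
  -1,
  0,
  0]

def wOne8 : List ℤ := [
  0,
  0,
  0,
  0,
  0,
  0,
  0,
  0,
  0,
  0,
  0,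
  0,
  0,
  0,
  0,
  0]

def wOne9 : List ℤ := [
  -1,
  0,
  0,
  0,
  0,
  0,
  0,
  0,
  0,
  0,
  1,
  0,
  0,
  0,
  0,
  0]

def wOne10 : List ℤ := [
  0,
  1,
  0,
  0,
  -1,
  0,
  -1,
  0,
  0,
  0,
  0,
  1,
  0,
  0,
  -1,
  0]

def wOne11 : List ℤ := [
  0,
  0,
  0,
  0,
  0,
  0,
  0,
  -1,
  0,
  1,
  0,
  0,
  0,
  0,
  -1,
  0]

def wOne12 : List ℤ := [
  0,
  1,
  0,
  0,
  0,
  0,
  0,
  0,
  0,
  0,
  0,
  -1,
  0,
  0,
  0,
  -1]

def wOne13 : List ℤ := [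
  0,
  0,
  0,
  0,
  0,
  0,
  0,
  0,
  0,
  -1,
  0,
  0,
  0,
  0,
  0,
  0]

def wOne14 : List ℤ := [
  0,
  0,
  0,
  -1,
  0,
  0,
  0,
  0,
  0,
  1,
  0,
  0,
  0,
  0,
  0,
  0]

def wOne15 : List ℤ := [
  0,
  0,
  0,
  0,
  -1,
  0,
  0,
  -1,
  1,
  0,
  0,
  0,
  0,
  0,
  1,
  0]

def wOne16 : List ℤ := [
  0,
  0,
  0,
  0,
  0,
  0,
  0,
  0,
  0,
  0,
  0,
  0,
  -1,
  0,
  0,
  0]

def wOne17 : List ℤ := [
  -1,
  0,
  0,
  1,
  0,
  0,
  0,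
  0,
  1,
  0,
  0,
  0,
  0,
  0,
  0,
  0]

def wOne18 : List ℤ := [
  0,
  0,
  0,
  0,
  0,
  0,
  0,
  0,
  -1,
  0,
  0,
  0,
  0,
  0,
  0,
  0]

def wOne19 : List ℤ := [
  1,
  0,
  0,
  0,
  0,
  0,
  0,
  0,
  0,
  0,
  0,
  0,
  0,
  0,
  0,
  -1]

def wOne20 : List ℤ := [
  0,
  0,
  0,
  0,
  1,
  0,
  0,
  0,
  -1,
  0,
  -1,
  0,
  1,
  -1,
  0,
  0]

def wOne21 : List ℤ := [
  0,
  0,
  0,
  0,
  0,
  0,
  0,
  0,
  0,
  0,
  0,
  0,
  0,
  -1,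
  0,
  0]

def wOne22 : List ℤ := [
  0,
  0,
  -1,
  0,
  0,
  0,
  1,
  0,
  0,
  0,
  0,
  0,
  0,
  0,
  0,
  0]

def wOne23 : List ℤ := [
  0,
  0,
  1,
  0,
  1,
  0,
  0,
  0,
  1,
  0,
  0,
  0,
  0,
  0,
  0,
  0]

def wOne24 : List ℤ := [
  1,
  -1,
  0,
  0,
  0,
  0,
  0,
  0,
  1,
  -1,
  0,
  0,
  0,
  0,
  1,
  0]

def wOne25 : List ℤ := [
  0,
  0,
  0,
  0,
  -1,
  0,
  0,
  0,
  -1,
  0,
  0,
  1,
  0,
  0,
  0,
  0]

def wOneTab : List (List ℤ) := [wOne0, wOne1, wOne2, wOne3, wOne4, wOne5, wOne6, wOne7, wOne8, wOne9, wOne10, wOne11, wOne12, wOne13, wOne14, wOne15, wOne16, wOne17, wOne18, wOne19, wOne20, wOne21, wOne22, wOne23, wOne24, wOne25]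

def wTwo0 : List ℤ := [
  0,
  1,
  0,
  0,
  0,
  -1,
  0,
  0,
  -1,
  0,
  0,
  0,
  0,
  0,
  0,
  0]

def wTwo1 : List ℤ := [
  -1,
  0,
  0,
  0,
  0,
  0,
  -1,
  0,
  0,
  0,
  0,
  0,
  0,
  1,
  1,
  0]

def wTwo2 : List ℤ := [
  0,
  -1,
  -1,
  0,
  0,
  0,
  0,
  -1,
  0,
  0,
  0,
  0,
  0,
  0,
  0,
  0]

def wTwo3 : List ℤ := [
  0,
  0,
  0,
  0,
  -1,
  0,
  0,
  0,
  0,
  0,
  0,
  0,
  0,
  0,
  1,
  -1]

def wTwo4 : List ℤ := [
  0,
  0,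
  0,
  0,
  0,
  1,
  0,
  0,
  0,
  0,
  0,
  0,
  0,
  0,
  0,
  0]

def wTwo5 : List ℤ := [
  1,
  0,
  0,
  -1,
  0,
  0,
  1,
  -1,
  0,
  0,
  0,
  0,
  0,
  0,
  1,
  0]

def wTwo6 : List ℤ := [
  1,
  0,
  0,
  0,
  0,
  0,
  0,
  0,
  0,
  0,
  0,
  0,
  0,
  1,
  1,
  0]

def wTwo7 : List ℤ := [
  0,
  0,
  0,
  0,
  0,
  0,
  0,
  0,
  0,
  0,
  0,
  -1,
  0,
  0,
  0,
  -1]

def wTwo8 : List ℤ := [
  0,
  0,
  0,
  0,
  0,
  0,
  0,
  -1,
  0,
  0,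
  0,
  -1,
  0,
  0,
  0,
  0]

def wTwo9 : List ℤ := [
  0,
  0,
  0,
  0,
  0,
  0,
  0,
  0,
  -1,
  0,
  1,
  0,
  0,
  0,
  -1,
  0]

def wTwo10 : List ℤ := [
  0,
  1,
  -1,
  0,
  0,
  0,
  0,
  0,
  0,
  0,
  0,
  1,
  0,
  0,
  0,
  0]

def wTwo11 : List ℤ := [
  0,
  0,
  0,
  0,
  0,
  0,
  0,
  0,
  0,
  1,
  0,
  0,
  0,
  0,
  0,
  0]

def wTwo12 : List ℤ := [
  0,
  1,
  0,
  0,
  0,
  0,
  0,
  0,
  0,
  0,
  0,
  0,
  0,
  -1,
  0,
  0]

def wTwo13 : List ℤ := [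
  0,
  0,
  0,
  0,
  -1,
  0,
  0,
  0,
  0,
  0,
  0,
  0,
  0,
  0,
  0,
  -1]

def wTwo14 : List ℤ := [
  0,
  0,
  0,
  0,
  0,
  0,
  0,
  0,
  0,
  1,
  0,
  0,
  0,
  0,
  0,
  0]

def wTwo15 : List ℤ := [
  0,
  0,
  0,
  0,
  0,
  0,
  0,
  0,
  1,
  0,
  0,
  0,
  0,
  0,
  1,
  0]

def wTwo16 : List ℤ := [
  0,
  0,
  0,
  0,
  0,
  0,
  0,
  0,
  0,
  0,
  0,
  0,
  0,
  0,
  0,
  0]

def wTwo17 : List ℤ := [
  0,
  0,
  0,
  1,
  0,
  0,
  0,
  -1,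
  1,
  -1,
  0,
  0,
  0,
  0,
  0,
  0]

def wTwo18 : List ℤ := [
  0,
  0,
  0,
  0,
  0,
  0,
  0,
  0,
  0,
  -1,
  0,
  0,
  0,
  0,
  0,
  0]

def wTwo19 : List ℤ := [
  1,
  0,
  0,
  0,
  0,
  0,
  0,
  0,
  0,
  0,
  0,
  0,
  -1,
  0,
  0,
  0]

def wTwo20 : List ℤ := [
  0,
  0,
  0,
  -1,
  1,
  -1,
  0,
  0,
  0,
  -1,
  0,
  0,
  1,
  0,
  0,
  0]

def wTwo21 : List ℤ := [
  0,
  0,
  -1,
  0,
  0,
  0,
  0,
  0,
  0,
  0,
  0,
  0,
  0,
  0,
  0,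
  0]

def wTwo22 : List ℤ := [
  -1,
  0,
  0,
  0,
  0,
  0,
  1,
  0,
  0,
  0,
  0,
  0,
  0,
  0,
  0,
  0]

def wTwo23 : List ℤ := [
  0,
  0,
  1,
  0,
  1,
  0,
  0,
  0,
  1,
  0,
  0,
  -1,
  0,
  0,
  0,
  -1]

def wTwo24 : List ℤ := [
  1,
  0,
  0,
  0,
  0,
  0,
  0,
  0,
  1,
  0,
  0,
  0,
  0,
  0,
  1,
  0]

def wTwo25 : List ℤ := [
  0,
  0,
  0,
  0,
  0,
  0,
  0,
  0,
  0,
  0,
  0,
  1,
  0,
  0,
  0,
  0]

def wTwoTab : List (List ℤ) := [wTwo0, wTwo1, wTwo2, wTwo3, wTwo4, wTwo5, wTwo6, wTwo7, wTwo8, wTwo9, wTwo10, wTwo11, wTwo12, wTwo13, wTwo14, wTwo15, wTwo16, wTwo17, wTwo18, wTwo19, wTwo20, wTwo21, wTwo22, wTwo23, wTwo24, wTwo25]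

def depth0 : List ℕ := [
  0,
  2,
  1,
  4,
  2,
  1,
  4,
  4,
  5,
  4,
  5,
  5,
  4,
  5,
  3,
  4]

def depth1 : List ℕ := [
  3,
  5,
  4,
  4,
  4,
  2,
  4,
  4,
  2,
  4,
  4,
  3,
  4,
  4,
  4,
  4]

def depth2 : List ℕ := [
  2,
  4,
  3,
  4,
  2,
  5,
  5,
  4,
  5,
  4,
  4,
  4,
  4,
  2,
  5,
  4]

def depth3 : List ℕ := [
  4,
  3,
  2,
  5,
  3,
  5,
  3,
  2,
  4,
  4,
  4,
  3,
  4,
  4,
  4,
  4]

def depth4 : List ℕ := [
  5,
  3,
  4,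
  5,
  5,
  5,
  3,
  4,
  2,
  4,
  4,
  4,
  2,
  2,
  4,
  4]

def depth5 : List ℕ := [
  4,
  4,
  5,
  3,
  4,
  5,
  3,
  4,
  5,
  4,
  4,
  5,
  4,
  2,
  4,
  3]

def depth6 : List ℕ := [
  4,
  4,
  4,
  2,
  4,
  4,
  2,
  3,
  4,
  5,
  4,
  4,
  3,
  4,
  4,
  5]

def depth7 : List ℕ := [
  4,
  4,
  4,
  3,
  4,
  5,
  4,
  5,
  5,
  3,
  4,
  5,
  4,
  4,
  4,
  4]

def depth8 : List ℕ := [
  4,
  4,
  4,
  5,
  4,
  4,
  2,
  3,
  3,
  3,
  4,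
  6,
  5,
  4,
  2,
  1]

def depth9 : List ℕ := [
  3,
  3,
  4,
  4,
  3,
  6,
  4,
  5,
  3,
  2,
  3,
  4,
  3,
  4,
  3,
  5]

def depth10 : List ℕ := [
  4,
  4,
  1,
  2,
  3,
  3,
  5,
  4,
  3,
  3,
  4,
  4,
  4,
  4,
  4,
  5]

def depth11 : List ℕ := [
  4,
  4,
  5,
  4,
  5,
  5,
  5,
  3,
  3,
  3,
  4,
  4,
  5,
  5,
  4,
  5]

def depth12 : List ℕ := [
  3,
  3,
  4,
  4,
  4,
  3,
  3,
  4,
  3,
  3,
  4,
  4,
  5,
  5,
  5,
  4]

def depth13 : List ℕ := [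
  5,
  4,
  5,
  3,
  3,
  4,
  5,
  5,
  3,
  4,
  5,
  3,
  3,
  3,
  5,
  4]

def depth14 : List ℕ := [
  4,
  4,
  4,
  4,
  4,
  4,
  4,
  3,
  3,
  3,
  4,
  5,
  5,
  3,
  4,
  4]

def depth15 : List ℕ := [
  3,
  5,
  5,
  4,
  4,
  4,
  5,
  3,
  4,
  4,
  4,
  4,
  3,
  4,
  3,
  3]

def depth16 : List ℕ := [
  2,
  4,
  3,
  4,
  5,
  1,
  3,
  4,
  3,
  5,
  4,
  3,
  4,
  3,
  4,
  4]

def depth17 : List ℕ := [
  5,
  3,
  4,
  3,
  4,
  4,
  5,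
  5,
  4,
  5,
  4,
  3,
  4,
  3,
  3,
  4]

def depth18 : List ℕ := [
  3,
  3,
  3,
  3,
  4,
  4,
  4,
  4,
  4,
  5,
  4,
  4,
  3,
  3,
  4,
  4]

def depth19 : List ℕ := [
  4,
  5,
  4,
  4,
  4,
  3,
  4,
  3,
  3,
  3,
  5,
  2,
  5,
  5,
  5,
  5]

def depth20 : List ℕ := [
  4,
  4,
  3,
  4,
  3,
  3,
  4,
  5,
  5,
  4,
  4,
  4,
  4,
  3,
  3,
  4]

def depth21 : List ℕ := [
  4,
  5,
  5,
  4,
  3,
  3,
  4,
  4,
  2,
  2,
  4,
  3,
  3,
  5,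
  3,
  4]

def depth22 : List ℕ := [
  3,
  4,
  4,
  5,
  3,
  5,
  3,
  4,
  4,
  4,
  5,
  3,
  4,
  3,
  5,
  3]

def depth23 : List ℕ := [
  3,
  4,
  4,
  5,
  5,
  1,
  5,
  4,
  4,
  3,
  4,
  3,
  2,
  4,
  5,
  4]

def depth24 : List ℕ := [
  2,
  4,
  4,
  5,
  4,
  4,
  5,
  5,
  5,
  2,
  4,
  4,
  4,
  4,
  4,
  4]

def depth25 : List ℕ := [
  4,
  3,
  3,
  4,
  3,
  2,
  4,
  5,
  4,
  5,
  3,
  4,
  4,
  5,
  2,
  4]

def depthTab : List (List ℕ) := [depth0, depth1, depth2, depth3, depth4, depth5, depth6, depth7, depth8, depth9, depth10, depth11, depth12, depth13, depth14, depth15, depth16, depth17, depth18, depth19, depth20, depth21, depth22, depth23, depth24, depth25]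

def step0 : List ℕ := [
  0,
  4,
  1,
  3,
  1,
  4,
  5,
  0,
  3,
  5,
  3,
  5,
  1,
  4,
  3,
  1]

def step1 : List ℕ := [
  4,
  2,
  3,
  5,
  3,
  4,
  5,
  5,
  2,
  4,
  1,
  1,
  3,
  2,
  2,
  4]

def step2 : List ℕ := [
  1,
  2,
  2,
  2,
  3,
  3,
  3,
  2,
  3,
  3,
  3,
  0,
  2,
  5,
  3,
  4]

def step3 : List ℕ := [
  2,
  1,
  4,
  4,
  1,
  2,
  3,
  2,
  0,
  2,
  2,
  2,
  3,
  5,
  3,
  2]

def step4 : List ℕ := [
  0,
  3,
  5,
  1,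
  0,
  3,
  1,
  1,
  2,
  3,
  5,
  4,
  0,
  4,
  3,
  3]

def step5 : List ℕ := [
  4,
  1,
  2,
  0,
  2,
  0,
  3,
  4,
  1,
  2,
  1,
  5,
  0,
  4,
  3,
  0]

def step6 : List ℕ := [
  2,
  5,
  5,
  1,
  2,
  5,
  5,
  4,
  2,
  5,
  0,
  3,
  5,
  5,
  1,
  5]

def step7 : List ℕ := [
  4,
  3,
  1,
  4,
  5,
  3,
  5,
  1,
  1,
  1,
  1,
  4,
  2,
  2,
  3,
  2]

def step8 : List ℕ := [
  2,
  3,
  2,
  4,
  2,
  1,
  0,
  0,
  0,
  0,
  3,
  1,
  1,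
  3,
  3,
  3]

def step9 : List ℕ := [
  2,
  3,
  5,
  2,
  2,
  2,
  0,
  4,
  3,
  3,
  3,
  0,
  1,
  1,
  1,
  1]

def step10 : List ℕ := [
  3,
  4,
  0,
  5,
  2,
  0,
  4,
  4,
  5,
  1,
  1,
  2,
  2,
  1,
  4,
  5]

def step11 : List ℕ := [
  1,
  4,
  4,
  5,
  4,
  2,
  2,
  2,
  4,
  5,
  5,
  5,
  0,
  5,
  3,
  4]

def step12 : List ℕ := [
  0,
  1,
  0,
  1,
  0,
  4,
  2,
  5,
  5,
  5,
  4,
  2,
  5,
  2,
  2,
  4]

def step13 : List ℕ := [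
  5,
  2,
  0,
  2,
  5,
  3,
  2,
  5,
  5,
  3,
  3,
  4,
  1,
  4,
  1,
  4]

def step14 : List ℕ := [
  3,
  1,
  2,
  3,
  4,
  2,
  5,
  3,
  1,
  3,
  3,
  0,
  2,
  3,
  2,
  0]

def step15 : List ℕ := [
  5,
  2,
  3,
  4,
  0,
  3,
  0,
  1,
  5,
  4,
  0,
  4,
  0,
  0,
  3,
  5]

def step16 : List ℕ := [
  2,
  0,
  0,
  2,
  0,
  2,
  4,
  0,
  4,
  3,
  0,
  0,
  1,
  0,
  0,
  0]

def step17 : List ℕ := [
  5,
  2,
  3,
  4,
  4,
  0,
  3,
  3,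
  3,
  0,
  3,
  3,
  0,
  3,
  5,
  5]

def step18 : List ℕ := [
  0,
  3,
  5,
  4,
  3,
  0,
  5,
  4,
  5,
  5,
  5,
  5,
  5,
  2,
  4,
  1]

def step19 : List ℕ := [
  0,
  1,
  5,
  2,
  0,
  4,
  5,
  5,
  4,
  3,
  4,
  1,
  4,
  2,
  3,
  0]

def step20 : List ℕ := [
  0,
  0,
  3,
  5,
  5,
  2,
  0,
  5,
  5,
  0,
  2,
  5,
  5,
  3,
  4,
  5]

def step21 : List ℕ := [
  2,
  5,
  2,
  5,
  3,
  4,
  2,
  5,
  1,
  3,
  3,
  3,
  3,
  2,
  2,
  5]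

def step22 : List ℕ := [
  2,
  5,
  3,
  5,
  4,
  5,
  2,
  1,
  3,
  2,
  4,
  5,
  0,
  0,
  0,
  5]

def step23 : List ℕ := [
  2,
  1,
  2,
  0,
  3,
  5,
  4,
  1,
  0,
  1,
  4,
  1,
  5,
  4,
  1,
  4]

def step24 : List ℕ := [
  5,
  0,
  3,
  3,
  4,
  4,
  2,
  3,
  1,
  2,
  1,
  0,
  1,
  1,
  0,
  2]

def step25 : List ℕ := [
  3,
  0,
  2,
  4,
  1,
  0,
  3,
  4,
  5,
  3,
  4,
  3,
  5,
  1,
  0,
  3]

def stepTab : List (List ℕ) := [step0, step1, step2, step3, step4, step5, step6, step7, step8, step9, step10, step11, step12, step13, step14, step15, step16, step17, step18, step19, step20, step21, step22, step23, step24, step25]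

def perm0x0 : List ℕ := [
  143,
  86,
  36,
  144,
  145,
  142,
  257,
  258,
  235,
  259,
  53,
  412,
  175,
  395,
  25,
  192]

def perm0x1 : List ℕ := [
  100,
  338,
  106,
  341,
  337,
  340,
  339,
  187,
  1,
  186,
  189,
  190,
  188,
  293,
  147,
  67]

def perm0x2 : List ℕ := [
  289,
  263,
  292,
  105,
  154,
  260,
  13,
  398,
  408,
  101,
  8,
  103,
  104,
  102,
  178,
  218]

def perm0x3 : List ℕ := [
  242,
  376,
  283,
  119,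
  406,
  321,
  360,
  65,
  164,
  374,
  407,
  324,
  209,
  185,
  299,
  349]

def perm0x4 : List ℕ := [
  44,
  234,
  174,
  389,
  48,
  390,
  79,
  56,
  285,
  193,
  305,
  329,
  2,
  231,
  253,
  239]

def perm0x5 : List ℕ := [
  246,
  151,
  413,
  344,
  15,
  298,
  155,
  203,
  382,
  409,
  69,
  51,
  52,
  54,
  23,
  55]

def perm0x6 : List ℕ := [
  179,
  385,
  222,
  348,
  318,
  116,
  237,
  113,
  236,
  238,
  165,
  359,
  309,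
  294,
  394,
  181]

def perm0x7 : List ℕ := [
  92,
  281,
  271,
  280,
  124,
  111,
  122,
  125,
  123,
  61,
  184,
  182,
  183,
  180,
  177,
  176]

def perm0x8 : List ℕ := [
  12,
  66,
  118,
  120,
  121,
  117,
  162,
  163,
  76,
  24,
  130,
  131,
  133,
  132,
  152,
  153]

def perm0x9 : List ℕ := [
  71,
  18,
  156,
  161,
  160,
  159,
  158,
  157,
  135,
  134,
  136,
  137,
  129,
  46,
  126,
  128]

def perm0x10 : List ℕ := [
  127,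
  96,
  0,
  5,
  3,
  4,
  166,
  167,
  168,
  169,
  170,
  171,
  150,
  148,
  146,
  149]

def perm0x11 : List ℕ := [
  173,
  172,
  81,
  30,
  91,
  140,
  139,
  41,
  138,
  141,
  365,
  367,
  364,
  326,
  366,
  87]

def perm0x12 : List ℕ := [
  50,
  378,
  275,
  10,
  95,
  93,
  94,
  89,
  26,
  384,
  250,
  205,
  191,
  204,
  90,
  262]

def perm0x13 : List ℕ := [
  371,
  266,
  296,
  397,
  216,
  88,
  244,
  243,
  245,
  6,
  9,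
  7,
  217,
  386,
  31,
  308]

def perm0x14 : List ℕ := [
  335,
  64,
  35,
  38,
  37,
  39,
  40,
  287,
  284,
  288,
  196,
  320,
  225,
  405,
  370,
  221]

def perm0x15 : List ℕ := [
  220,
  206,
  82,
  375,
  311,
  249,
  331,
  346,
  332,
  351,
  356,
  381,
  21,
  255,
  78,
  256]

def perm0x16 : List ℕ := [
  254,
  240,
  32,
  319,
  342,
  345,
  343,
  16,
  107,
  361,
  379,
  380,
  63,
  99,
  247,
  410]

def perm0x17 : List ℕ := [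
  22,
  369,
  302,
  282,
  215,
  358,
  357,
  327,
  110,
  396,
  399,
  84,
  286,
  232,
  72,
  352]

def perm0x18 : List ℕ := [
  414,
  219,
  195,
  42,
  336,
  269,
  301,
  303,
  363,
  272,
  323,
  387,
  252,
  411,
  75,
  279]

def perm0x19 : List ℕ := [
  115,
  114,
  112,
  223,
  108,
  307,
  265,
  354,
  213,
  224,
  388,
  333,
  295,
  310,
  33,
  47]

def perm0x20 : List ℕ := [
  291,
  290,
  49,
  17,
  267,
  404,
  334,
  316,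
  109,
  377,
  228,
  211,
  199,
  202,
  200,
  201]

def perm0x21 : List ℕ := [
  97,
  210,
  85,
  391,
  415,
  62,
  330,
  278,
  322,
  233,
  57,
  59,
  29,
  58,
  60,
  212]

def perm0x22 : List ℕ := [
  401,
  312,
  362,
  276,
  315,
  207,
  73,
  314,
  383,
  403,
  214,
  20,
  325,
  393,
  251,
  198]

def perm0x23 : List ℕ := [
  227,
  229,
  226,
  230,
  194,
  45,
  270,
  355,
  83,
  274,
  277,
  350,
  347,
  27,
  353,
  197]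

def perm0x24 : List ℕ := [
  313,
  34,
  70,
  19,
  264,
  98,
  241,
  297,
  11,
  14,
  304,
  368,
  43,
  80,
  273,
  372]

def perm0x25 : List ℕ := [
  392,
  77,
  400,
  317,
  28,
  373,
  306,
  268,
  208,
  248,
  74,
  328,
  402,
  68,
  261,
  300]

def perm0xTab : List (List ℕ) := [perm0x0, perm0x1, perm0x2, perm0x3, perm0x4, perm0x5, perm0x6, perm0x7, perm0x8, perm0x9, perm0x10, perm0x11, perm0x12, perm0x13, perm0x14, perm0x15, perm0x16, perm0x17, perm0x18, perm0x19, perm0x20, perm0x21, perm0x22, perm0x23, perm0x24, perm0x25]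

def perm1x0 : List ℕ := [
  5,
  4,
  0,
  3,
  2,
  1,
  326,
  329,
  327,
  330,
  328,
  346,
  347,
  349,
  71,
  348]

def perm1x1 : List ℕ := [
  350,
  332,
  333,
  335,
  101,
  334,
  336,
  331,
  221,
  287,
  255,
  36,
  320,
  351,
  201,
  272]

def perm1x2 : List ℕ := [
  261,
  61,
  324,
  337,
  197,
  294,
  244,
  30,
  317,
  338,
  340,
  106,
  339,
  341,
  204,
  290]

def perm1x3 : List ℕ := [
  241,
  24,
  312,
  342,
  344,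
  91,
  343,
  345,
  352,
  354,
  66,
  353,
  355,
  215,
  282,
  237]

def perm1x4 : List ℕ := [
  46,
  302,
  224,
  292,
  248,
  41,
  315,
  193,
  285,
  258,
  56,
  305,
  356,
  358,
  111,
  357]

def perm1x5 : List ℕ := [
  359,
  368,
  370,
  76,
  369,
  371,
  360,
  362,
  96,
  361,
  363,
  218,
  280,
  264,
  18,
  308]

def perm1x6 : List ℕ := [
  372,
  374,
  81,
  373,
  375,
  208,
  275,
  251,
  12,
  310,
  211,
  278,
  233,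
  51,
  322,
  364]

def perm1x7 : List ℕ := [
  366,
  86,
  365,
  367,
  89,
  250,
  385,
  26,
  124,
  384,
  59,
  68,
  182,
  394,
  15,
  73]

def perm1x8 : List ℕ := [
  118,
  387,
  273,
  238,
  395,
  136,
  291,
  256,
  386,
  154,
  283,
  242,
  376,
  178,
  54,
  93]

def perm1x9 : List ℕ := [
  168,
  383,
  84,
  263,
  393,
  38,
  128,
  392,
  295,
  262,
  388,
  140,
  99,
  247,
  380,
  63]

def perm1x10 : List ℕ := [
  144,
  379,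
  21,
  103,
  148,
  381,
  114,
  232,
  378,
  32,
  164,
  377,
  44,
  108,
  158,
  382]

def perm1x11 : List ℕ := [
  288,
  245,
  391,
  132,
  79,
  257,
  390,
  48,
  174,
  389,
  307,
  301,
  319,
  304,
  314,
  297]

def perm1x12 : List ℕ := [
  249,
  414,
  121,
  300,
  176,
  202,
  396,
  296,
  152,
  216,
  397,
  138,
  222,
  398,
  298,
  259]

def perm1x13 : List ℕ := [
  413,
  151,
  265,
  411,
  161,
  299,
  130,
  205,
  399,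
  252,
  415,
  171,
  134,
  198,
  400,
  234]

def perm1x14 : List ℕ := [
  412,
  185,
  17,
  11,
  23,
  29,
  35,
  7,
  72,
  75,
  74,
  10,
  88,
  87,
  90,
  9]

def perm1x15 : List ℕ := [
  83,
  82,
  85,
  98,
  97,
  100,
  8,
  102,
  105,
  104,
  107,
  110,
  109,
  6,
  113,
  112]

def perm1x16 : List ℕ := [
  115,
  92,
  95,
  94,
  78,
  77,
  80,
  67,
  70,
  69,
  270,
  269,
  267,
  266,
  268,
  271]

def perm1x17 : List ℕ := [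
  214,
  31,
  274,
  276,
  157,
  277,
  279,
  117,
  281,
  181,
  203,
  62,
  284,
  286,
  167,
  196]

def perm1x18 : List ℕ := [
  25,
  289,
  220,
  47,
  293,
  147,
  200,
  37,
  230,
  227,
  226,
  229,
  228,
  253,
  166,
  254]

def perm1x19 : List ℕ := [
  239,
  173,
  43,
  231,
  127,
  14,
  123,
  58,
  156,
  243,
  235,
  143,
  53,
  116,
  236,
  246]

def perm1x20 : List ℕ := [
  180,
  260,
  163,
  20,
  146,
  240,
  187,
  188,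
  190,
  186,
  189,
  195,
  206,
  207,
  52,
  126]

def perm1x21 : List ℕ := [
  209,
  199,
  210,
  57,
  142,
  212,
  217,
  42,
  162,
  219,
  191,
  192,
  19,
  122,
  194,
  213]

def perm1x22 : List ℕ := [
  223,
  13,
  172,
  225,
  325,
  28,
  169,
  404,
  303,
  40,
  159,
  403,
  321,
  65,
  119,
  406]

def perm1x23 : List ℕ := [
  313,
  34,
  183,
  409,
  318,
  50,
  149,
  402,
  165,
  55,
  401,
  45,
  405,
  155,
  141,
  133]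

def perm1x24 : List ℕ := [
  16,
  407,
  145,
  179,
  125,
  60,
  408,
  175,
  22,
  410,
  137,
  129,
  49,
  27,
  33,
  39]

def perm1x25 : List ℕ := [
  64,
  160,
  177,
  131,
  153,
  184,
  135,
  150,
  120,
  139,
  170,
  306,
  311,
  323,
  309,
  316]

def perm1xTab : List (List ℕ) := [perm1x0, perm1x1, perm1x2, perm1x3, perm1x4, perm1x5, perm1x6, perm1x7, perm1x8, perm1x9, perm1x10, perm1x11, perm1x12, perm1x13, perm1x14, perm1x15, perm1x16, perm1x17, perm1x18, perm1x19, perm1x20, perm1x21, perm1x22, perm1x23, perm1x24, perm1x25]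

def perm2x0 : List ℕ := [
  373,
  405,
  102,
  237,
  168,
  45,
  372,
  329,
  374,
  81,
  375,
  64,
  150,
  88,
  335,
  308]

def perm2x1 : List ℕ := [
  395,
  396,
  366,
  176,
  79,
  300,
  202,
  226,
  162,
  348,
  94,
  323,
  392,
  291,
  220,
  47]

def perm2x2 : List ℕ := [
  290,
  289,
  134,
  183,
  185,
  182,
  180,
  184,
  181,
  409,
  189,
  356,
  34,
  313,
  140,
  410]

def perm2x3 : List ℕ := [
  52,
  110,
  240,
  228,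
  230,
  227,
  229,
  2,
  352,
  211,
  154,
  256,
  386,
  11,
  62,
  65]

def perm2x4 : List ℕ := [
  63,
  61,
  40,
  303,
  403,
  159,
  190,
  326,
  5,
  328,
  327,
  330,
  164,
  324,
  293,
  209]

def perm2x5 : List ℕ := [
  407,
  82,
  84,
  9,
  83,
  85,
  267,
  242,
  131,
  404,
  115,
  382,
  129,
  311,
  249,
  287]

def perm2x6 : List ℕ := [
  193,
  56,
  305,
  285,
  258,
  397,
  216,
  296,
  152,
  89,
  173,
  175,
  30,
  174,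
  172,
  15]

def perm2x7 : List ℕ := [
  73,
  387,
  204,
  118,
  58,
  265,
  264,
  123,
  263,
  253,
  12,
  13,
  14,
  16,
  295,
  333]

def perm2x8 : List ℕ := [
  262,
  388,
  49,
  119,
  288,
  357,
  286,
  95,
  186,
  414,
  203,
  53,
  69,
  155,
  212,
  384]

def perm2x9 : List ℕ := [
  345,
  22,
  304,
  301,
  4,
  319,
  314,
  307,
  364,
  367,
  86,
  365,
  130,
  214,
  31,
  271]

def perm2x10 : List ℕ := [
  272,
  273,
  163,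
  76,
  24,
  165,
  338,
  337,
  339,
  341,
  106,
  340,
  156,
  221,
  206,
  222]

def perm2x11 : List ℕ := [
  350,
  112,
  278,
  390,
  7,
  96,
  100,
  99,
  98,
  97,
  320,
  124,
  225,
  370,
  281,
  178]

def perm2x12 : List ℕ := [
  179,
  66,
  177,
  75,
  71,
  74,
  72,
  57,
  59,
  29,
  60,
  283,
  218,
  376,
  399,
  361]

def perm2x13 : List ℕ := [
  149,
  27,
  210,
  142,
  199,
  243,
  48,
  139,
  325,
  411,
  279,
  342,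
  358,
  299,
  205,
  244]

def perm2x14 : List ℕ := [
  245,
  231,
  247,
  274,
  276,
  275,
  157,
  101,
  332,
  334,
  336,
  104,
  196,
  141,
  402,
  103]

def perm2x15 : List ℕ := [
  306,
  217,
  117,
  51,
  133,
  132,
  8,
  77,
  80,
  78,
  381,
  148,
  21,
  105,
  187,
  412]

def perm2x16 : List ℕ := [
  143,
  126,
  353,
  309,
  10,
  0,
  6,
  260,
  408,
  398,
  113,
  116,
  235,
  238,
  236,
  46]

def perm2x17 : List ℕ := [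
  17,
  50,
  215,
  146,
  213,
  282,
  316,
  371,
  128,
  127,
  138,
  277,
  346,
  351,
  331,
  349]

def perm2x18 : List ℕ := [
  347,
  302,
  219,
  144,
  135,
  26,
  394,
  68,
  169,
  166,
  167,
  170,
  171,
  93,
  91,
  92]

def perm2x19 : List ℕ := [
  54,
  354,
  161,
  197,
  317,
  294,
  147,
  310,
  195,
  198,
  360,
  363,
  362,
  406,
  321,
  383]

def perm2x20 : List ℕ := [
  234,
  125,
  109,
  20,
  23,
  55,
  270,
  151,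
  194,
  355,
  377,
  44,
  42,
  70,
  401,
  254]

def perm2x21 : List ℕ := [
  136,
  43,
  250,
  251,
  252,
  239,
  368,
  158,
  108,
  201,
  41,
  224,
  248,
  292,
  315,
  35]

def perm2x22 : List ℕ := [
  36,
  37,
  39,
  38,
  298,
  413,
  344,
  259,
  122,
  192,
  191,
  19,
  268,
  3,
  266,
  269]

def perm2x23 : List ℕ := [
  32,
  378,
  232,
  114,
  280,
  380,
  28,
  120,
  107,
  312,
  241,
  160,
  393,
  297,
  33,
  389]

def perm2x24 : List ℕ := [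
  200,
  137,
  145,
  18,
  67,
  208,
  207,
  391,
  246,
  261,
  359,
  318,
  379,
  188,
  87,
  322]

def perm2x25 : List ℕ := [
  284,
  1,
  153,
  257,
  121,
  233,
  111,
  25,
  90,
  400,
  343,
  369,
  385,
  223,
  255,
  415]

def perm2xTab : List (List ℕ) := [perm2x0, perm2x1, perm2x2, perm2x3, perm2x4, perm2x5, perm2x6, perm2x7, perm2x8, perm2x9, perm2x10, perm2x11, perm2x12, perm2x13, perm2x14, perm2x15, perm2x16, perm2x17, perm2x18, perm2x19, perm2x20, perm2x21, perm2x22, perm2x23, perm2x24, perm2x25]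

def perm3x0 : List ℕ := [
  162,
  24,
  76,
  164,
  165,
  163,
  217,
  219,
  42,
  218,
  195,
  392,
  128,
  38,
  393,
  84]

def perm3x1 : List ℕ := [
  263,
  323,
  145,
  387,
  363,
  252,
  272,
  94,
  137,
  14,
  200,
  381,
  404,
  348,
  179,
  222]

def perm3x2 : List ℕ := [
  258,
  318,
  385,
  226,
  2,
  228,
  227,
  229,
  230,
  183,
  291,
  396,
  64,
  373,
  157,
  319]

def perm3x3 : List ℕ := [
  68,
  322,
  192,
  91,
  92,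
  10,
  93,
  95,
  71,
  346,
  349,
  347,
  350,
  121,
  341,
  268]

def perm3x4 : List ℕ := [
  225,
  55,
  129,
  31,
  413,
  90,
  386,
  144,
  286,
  358,
  410,
  302,
  136,
  401,
  254,
  70]

def perm3x5 : List ℕ := [
  397,
  178,
  242,
  376,
  283,
  338,
  1,
  191,
  213,
  199,
  206,
  180,
  112,
  197,
  198,
  196]

def perm3x6 : List ℕ := [
  161,
  336,
  389,
  269,
  16,
  41,
  45,
  43,
  44,
  35,
  18,
  264,
  308,
  328,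
  280,
  117]

def perm3x7 : List ℕ := [
  306,
  103,
  305,
  304,
  101,
  133,
  130,
  51,
  131,
  132,
  118,
  120,
  116,
  119,
  158,
  160]

def perm3x8 : List ℕ := [
  159,
  156,
  138,
  139,
  141,
  140,
  153,
  152,
  154,
  155,
  184,
  182,
  181,
  185,
  5,
  0]

def perm3x9 : List ℕ := [
  3,
  4,
  174,
  30,
  173,
  175,
  172,
  81,
  142,
  143,
  36,
  86,
  146,
  151,
  150,
  149]

def perm3x10 : List ℕ := [
  148,
  147,
  134,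
  135,
  56,
  106,
  166,
  167,
  168,
  169,
  170,
  171,
  177,
  176,
  66,
  12]

def perm3x11 : List ℕ := [
  127,
  126,
  46,
  96,
  125,
  111,
  123,
  124,
  122,
  61,
  25,
  23,
  28,
  26,
  27,
  204]

def perm3x12 : List ℕ := [
  15,
  73,
  372,
  290,
  234,
  383,
  367,
  332,
  334,
  335,
  333,
  87,
  205,
  203,
  241,
  357]

def perm3x13 : List ℕ := [
  408,
  60,
  337,
  331,
  351,
  312,
  362,
  276,
  212,
  220,
  47,
  289,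
  240,
  239,
  98,
  307]

def perm3x14 : List ℕ := [
  313,
  236,
  370,
  368,
  330,
  369,
  371,
  77,
  285,
  345,
  65,
  8,
  104,
  102,
  105,
  79]

def perm3x15 : List ℕ := [
  257,
  390,
  48,
  215,
  214,
  216,
  80,
  270,
  409,
  245,
  202,
  366,
  300,
  78,
  256,
  253]

def perm3x16 : List ℕ := [
  255,
  6,
  7,
  9,
  37,
  414,
  207,
  33,
  388,
  310,
  209,
  324,
  407,
  293,
  374,
  114]

def perm3x17 : List ℕ := [
  297,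
  398,
  377,
  194,
  355,
  378,
  343,
  303,
  115,
  113,
  275,
  50,
  232,
  72,
  284,
  231]

def perm3x18 : List ℕ := [
  233,
  32,
  321,
  320,
  34,
  29,
  109,
  316,
  210,
  391,
  85,
  62,
  415,
  294,
  274,
  295]

def perm3x19 : List ℕ := [
  394,
  74,
  406,
  309,
  223,
  108,
  317,
  244,
  353,
  384,
  359,
  356,
  327,
  403,
  100,
  259]

def perm3x20 : List ℕ := [
  235,
  53,
  344,
  298,
  59,
  364,
  189,
  279,
  411,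
  75,
  342,
  246,
  248,
  315,
  326,
  224]

def perm3x21 : List ℕ := [
  292,
  20,
  17,
  22,
  21,
  19,
  260,
  262,
  83,
  261,
  247,
  380,
  99,
  63,
  379,
  249]

def perm3x22 : List ℕ := [
  287,
  382,
  311,
  375,
  250,
  278,
  277,
  107,
  54,
  265,
  354,
  296,
  188,
  186,
  190,
  187]

def perm3x23 : List ℕ := [
  395,
  273,
  238,
  208,
  399,
  405,
  57,
  243,
  49,
  329,
  193,
  266,
  267,
  251,
  88,
  360]

def perm3x24 : List ℕ := [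
  201,
  97,
  221,
  299,
  314,
  67,
  69,
  339,
  400,
  365,
  110,
  13,
  281,
  211,
  39,
  282]

def perm3x25 : List ℕ := [
  402,
  352,
  412,
  361,
  325,
  237,
  52,
  58,
  40,
  89,
  271,
  301,
  11,
  82,
  288,
  340]

def perm3xTab : List (List ℕ) := [perm3x0, perm3x1, perm3x2, perm3x3, perm3x4, perm3x5, perm3x6, perm3x7, perm3x8, perm3x9, perm3x10, perm3x11, perm3x12, perm3x13, perm3x14, perm3x15, perm3x16, perm3x17, perm3x18, perm3x19, perm3x20, perm3x21, perm3x22, perm3x23, perm3x24, perm3x25]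

def perm4x0 : List ℕ := [
  2,
  5,
  4,
  3,
  1,
  0,
  253,
  231,
  246,
  239,
  235,
  227,
  104,
  353,
  309,
  126]

def perm4x1 : List ℕ := [
  384,
  226,
  94,
  348,
  323,
  162,
  392,
  228,
  49,
  288,
  119,
  397,
  357,
  229,
  39,
  273]

def perm4x2 : List ℕ := [
  169,
  398,
  369,
  230,
  27,
  295,
  149,
  399,
  361,
  69,
  343,
  306,
  172,
  379,
  64,
  291]

def perm4x3 : List ℕ := [
  183,
  396,
  373,
  109,
  334,
  316,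
  142,
  377,
  74,
  339,
  311,
  122,
  389,
  33,
  283,
  159]

def perm4x4 : List ℕ := [
  400,
  365,
  58,
  263,
  123,
  265,
  264,
  14,
  232,
  127,
  234,
  233,
  83,
  261,
  260,
  180]

def perm4x5 : List ℕ := [
  262,
  98,
  241,
  240,
  146,
  242,
  113,
  237,
  236,
  116,
  238,
  53,
  257,
  143,
  259,
  258]

def perm4x6 : List ℕ := [
  88,
  244,
  243,
  156,
  245,
  20,
  247,
  163,
  249,
  248,
  43,
  250,
  173,
  252,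
  251,
  78]

def perm4x7 : List ℕ := [
  255,
  254,
  166,
  256,
  317,
  279,
  128,
  366,
  408,
  194,
  349,
  310,
  120,
  388,
  335,
  308]

def perm4x8 : List ℕ := [
  150,
  395,
  214,
  403,
  179,
  383,
  220,
  406,
  133,
  394,
  203,
  409,
  155,
  382,
  340,
  315]

def perm4x9 : List ℕ := [
  160,
  386,
  324,
  293,
  164,
  374,
  407,
  209,
  200,
  404,
  137,
  381,
  312,
  276,
  174,
  362]

def perm4x10 : List ℕ := [
  401,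
  212,
  344,
  322,
  170,
  376,
  302,
  286,
  144,
  358,
  410,
  219,
  354,
  305,
  184,
  391]

def perm4x11 : List ℕ := [
  196,
  402,
  141,
  387,
  320,
  281,
  124,
  370,
  405,
  225,
  329,
  326,
  327,
  330,
  328,
  346]

def perm4x12 : List ℕ := [
  347,
  71,
  350,
  331,
  287,
  36,
  221,
  337,
  294,
  30,
  197,
  282,
  46,
  215,
  332,
  333]

def perm4x13 : List ℕ := [
  101,
  336,
  338,
  106,
  341,
  351,
  272,
  61,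
  201,
  342,
  91,
  345,
  290,
  24,
  204,
  352]

def perm4x14 : List ℕ := [
  66,
  355,
  298,
  297,
  300,
  299,
  296,
  307,
  167,
  108,
  223,
  314,
  318,
  63,
  131,
  304]

def perm4x15 : List ℕ := [
  325,
  48,
  139,
  313,
  38,
  177,
  319,
  157,
  68,
  192,
  117,
  103,
  217,
  301,
  303,
  26]

def perm4x16 : List ℕ := [
  135,
  181,
  73,
  207,
  321,
  32,
  153,
  147,
  93,
  210,
  269,
  268,
  270,
  267,
  266,
  271]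

def perm4x17 : List ℕ := [
  31,
  130,
  274,
  102,
  275,
  277,
  107,
  278,
  92,
  280,
  62,
  138,
  284,
  72,
  285,
  25]

def perm4x18 : List ℕ := [
  176,
  289,
  47,
  134,
  67,
  292,
  37,
  152,
  199,
  191,
  206,
  213,
  195,
  187,
  65,
  360]

def perm4x19 : List ℕ := [
  189,
  75,
  411,
  186,
  95,
  414,
  105,
  412,
  50,
  368,
  190,
  70,
  415,
  40,
  372,
  188]

def perm4x20 : List ℕ := [
  28,
  364,
  110,
  413,
  34,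
  356,
  6,
  8,
  10,
  7,
  9,
  23,
  17,
  18,
  21,
  19]

def perm4x21 : List ℕ := [
  22,
  35,
  41,
  44,
  42,
  45,
  51,
  54,
  52,
  55,
  11,
  12,
  15,
  13,
  16,
  29]

def perm4x22 : List ℕ := [
  56,
  59,
  57,
  60,
  76,
  79,
  77,
  80,
  86,
  89,
  87,
  90,
  111,
  114,
  112,
  115]

def perm4x23 : List ℕ := [
  81,
  84,
  82,
  85,
  96,
  99,
  97,
  100,
  140,
  171,
  168,
  161,
  158,
  165,
  175,
  145]

def perm4x24 : List ℕ := [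
  121,
  118,
  136,
  129,
  154,
  185,
  182,
  178,
  151,
  148,
  125,
  132,
  198,
  202,
  205,
  216]

def perm4x25 : List ℕ := [
  222,
  378,
  375,
  363,
  359,
  380,
  367,
  385,
  390,
  371,
  393,
  211,
  224,
  208,
  193,
  218]

def perm4xTab : List (List ℕ) := [perm4x0, perm4x1, perm4x2, perm4x3, perm4x4, perm4x5, perm4x6, perm4x7, perm4x8, perm4x9, perm4x10, perm4x11, perm4x12, perm4x13, perm4x14, perm4x15, perm4x16, perm4x17, perm4x18, perm4x19, perm4x20, perm4x21, perm4x22, perm4x23, perm4x24, perm4x25]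

def perm5x0 : List ℕ := [
  261,
  401,
  55,
  365,
  148,
  72,
  262,
  180,
  246,
  83,
  260,
  61,
  122,
  123,
  124,
  111]

def perm5x1 : List ℕ := [
  125,
  272,
  387,
  363,
  323,
  252,
  145,
  324,
  164,
  407,
  293,
  209,
  374,
  201,
  108,
  158]

def perm5x2 : List ℕ := [
  368,
  382,
  44,
  351,
  352,
  353,
  355,
  354,
  66,
  346,
  332,
  337,
  331,
  5,
  271,
  31]

def perm5x3 : List ℕ := [
  214,
  130,
  273,
  243,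
  48,
  139,
  304,
  325,
  97,
  199,
  116,
  200,
  202,
  65,
  62,
  64]

def perm5x4 : List ℕ := [
  11,
  63,
  193,
  388,
  295,
  140,
  333,
  196,
  198,
  112,
  197,
  195,
  163,
  247,
  249,
  20]

def perm5x5 : List ℕ := [
  248,
  9,
  81,
  84,
  82,
  85,
  154,
  398,
  13,
  105,
  408,
  302,
  303,
  301,
  26,
  135]

def perm5x6 : List ℕ := [
  181,
  185,
  184,
  183,
  182,
  231,
  2,
  239,
  235,
  253,
  170,
  376,
  344,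
  322,
  49,
  406]

def perm5x7 : List ℕ := [
  177,
  266,
  371,
  90,
  267,
  242,
  115,
  131,
  375,
  404,
  360,
  119,
  187,
  321,
  257,
  281]

def perm5x8 : List ℕ := [
  280,
  92,
  156,
  88,
  245,
  244,
  34,
  292,
  336,
  385,
  282,
  215,
  46,
  237,
  211,
  256]

def perm5x9 : List ℕ := [
  291,
  386,
  275,
  310,
  251,
  208,
  12,
  327,
  104,
  402,
  58,
  141,
  172,
  230,
  343,
  69]

def perm5x10 : List ℕ := [
  379,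
  306,
  24,
  162,
  76,
  165,
  297,
  298,
  4,
  296,
  299,
  300,
  110,
  106,
  109,
  107]

def perm5x11 : List ℕ := [
  19,
  194,
  191,
  192,
  38,
  40,
  37,
  35,
  39,
  36,
  136,
  254,
  397,
  42,
  70,
  362]

def perm5x12 : List ℕ := [
  361,
  96,
  328,
  312,
  236,
  307,
  313,
  212,
  384,
  345,
  22,
  138,
  114,
  222,
  174,
  390]

def perm5x13 : List ℕ := [
  389,
  79,
  210,
  57,
  142,
  276,
  157,
  274,
  102,
  241,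
  204,
  290,
  30,
  173,
  175,
  413]

def perm5x14 : List ℕ := [
  347,
  188,
  23,
  53,
  51,
  54,
  52,
  225,
  370,
  405,
  320,
  268,
  270,
  3,
  269,
  341]

def perm5x15 : List ℕ := [
  50,
  378,
  87,
  213,
  223,
  224,
  392,
  226,
  348,
  94,
  338,
  339,
  340,
  121,
  335,
  414]

def perm5x16 : List ℕ := [
  59,
  403,
  100,
  359,
  263,
  393,
  128,
  120,
  118,
  117,
  366,
  86,
  364,
  367,
  326,
  159]

def perm5x17 : List ℕ := [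
  160,
  161,
  227,
  229,
  228,
  283,
  178,
  218,
  372,
  190,
  277,
  203,
  400,
  99,
  134,
  95]

def perm5x18 : List ℕ := [
  132,
  33,
  32,
  29,
  349,
  78,
  309,
  126,
  103,
  381,
  356,
  221,
  21,
  147,
  289,
  67]

def perm5x19 : List ℕ := [
  146,
  98,
  240,
  151,
  15,
  259,
  311,
  93,
  377,
  45,
  150,
  350,
  278,
  308,
  395,
  149]

def perm5x20 : List ℕ := [
  186,
  318,
  399,
  27,
  77,
  216,
  71,
  74,
  73,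
  7,
  75,
  286,
  232,
  127,
  233,
  14]

def perm5x21 : List ℕ := [
  234,
  167,
  166,
  168,
  171,
  169,
  219,
  410,
  358,
  144,
  284,
  288,
  25,
  287,
  176,
  285]

def perm5x22 : List ℕ := [
  56,
  258,
  305,
  329,
  43,
  133,
  220,
  394,
  314,
  207,
  316,
  315,
  152,
  155,
  18,
  153]

def perm5x23 : List ℕ := [
  342,
  411,
  189,
  279,
  6,
  0,
  8,
  10,
  205,
  330,
  369,
  396,
  373,
  250,
  91,
  319]

def perm5x24 : List ℕ := [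
  143,
  412,
  60,
  113,
  129,
  383,
  179,
  391,
  28,
  380,
  294,
  16,
  17,
  101,
  265,
  206]

def perm5x25 : List ℕ := [
  409,
  334,
  238,
  68,
  89,
  1,
  317,
  80,
  264,
  41,
  47,
  217,
  255,
  357,
  137,
  415]

def perm5xTab : List (List ℕ) := [perm5x0, perm5x1, perm5x2, perm5x3, perm5x4, perm5x5, perm5x6, perm5x7, perm5x8, perm5x9, perm5x10, perm5x11, perm5x12, perm5x13, perm5x14, perm5x15, perm5x16, perm5x17, perm5x18, perm5x19, perm5x20, perm5x21, perm5x22, perm5x23, perm5x24, perm5x25]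

def permTab : List (List (List ℕ)) := [perm0xTab, perm1xTab, perm2xTab, perm3xTab, perm4xTab, perm5xTab]

end Vale.Agent.P052
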