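import Mathlib
import Vale.Agent.P052.DataBits
import Vale.Agent.P052.DataNb
import Vale.Agent.P052.DataVec

/-! Finite checks on the 416-vertex graph. -/

namespace Vale.Agent.P052

def lk {α : Type} (T : List (List α)) (d : α) (a : ℕ) : α :=
  (T.getD (a / 16) []).getD (a % 16) d

def bitsOf (a : ℕ) : ℕ := lk bitsTab 0 a
def spreadOf (a : ℕ) : ℕ := lk spreadTab 0 a
def nbOf (a : ℕ) : List ℕ := lk nbTab [] a
def gOf (a : ℕ) : ℤ := lk gVecTab 0 a
def w1Of (a : ℕ) : ℤ := lk wOneTab 0 a
def w2Of (a : ℕ) : ℤ := lk wTwoTab 0 a
def depthOf (a : ℕ) : ℕ := lk depthTab 0 a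
def stepOf (a : ℕ) : ℕ := lk stepTab 0 a
def permOf (k a : ℕ) : ℕ := lk (permTab.getD k []) 0 a

def adjB (a b : ℕ) : Bool := (bitsOf a).testBit b

def noC (adj : ℕ → ℕ → Bool) : ℕ → List ℕ → Bool
  | 0 => fun _ => false
  | k + 1 => fun l => allSuf l fun v r => noC adj k (r.filter (adj v))
where
  allSuf : List ℕ → (ℕ → List ℕ → Bool) → Bool
  | [], _ => true
  | v :: r, f => f v r && allSuf r f

def rowOK (a : ℕ) : Bool :=
  decide (((nbOf a).map fun b => 2 ^ b).sum = bitsOf a) &&
  decide ((nbOf a).IsChain (· < ·)) &&
  (nbOf a).all (fun b => decide (b < 416) && adjB b a && decide (b ≠ a)) &&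
  decide ((nbOf a).length = 100)

theorem rows_ok : (List.range 416).all rowOK = true := by decide +kernel

def sqOK (a : ℕ) : Bool :=
  decide (((nbOf a).map fun b => 256 ^ b).sum = spreadOf a) &&
  decide (((nbOf a).map spreadOf).sum =
    80 * 256 ^ a + 16 * spreadOf a + 20 * ((256 ^ 416 - 1) / 255))

theorem sq_ok : (List.range 416).all sqOK = true := by decide +kernel

def eigOK (a : ℕ) : Bool :=
  decide (((nbOf a).map gOf).sum = 20 * gOf a) &&
  decide (((nbOf a).map w1Of).sum = 20 * w1Of a) &&
  decide (((nbOf a).map w2Of).sum = 20 * w2Of a)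

theorem eig_ok : (List.range 416).all eigOK = true := by decide +kernel

theorem sum_g : ((List.range 416).map gOf).sum = 0 := by decide +kernel
theorem sum_w1 : ((List.range 416).map w1Of).sum = 0 := by decide +kernel
theorem sum_w2 : ((List.range 416).map w2Of).sum = 0 := by decide +kernel
theorem sum_gg : ((List.range 416).map fun a => gOf a * gOf a).sum = 1248 := by decide +kernel
theorem sum_gw1 : ((List.range 416).map fun a => w1Of a * gOf a).sum = 0 := by decide +kernel
theorem sum_gw2 : ((List.range 416).map fun a => w2Of a * gOf a).sum = 0 := by decide +kernel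

def inS (a : ℕ) : Bool := decide (w1Of a = 0) && decide (w2Of a = 0)

theorem card_S : ((List.range 416).filter inS).length = 320 := by decide +kernel

theorem g_on_S : (List.range 416).all (fun a => !inS a || decide (gOf a = -1 ∨ gOf a = 3)) = true := by
  decide +kernel

theorem indep_w : (List.range 416).any (fun a => decide (w1Of a ≠ 0) && decide (w2Of a = 0)) = true ∧
    (List.range 416).any (fun a => decide (w2Of a ≠ 0)) = true := by decide +kernel

theorem no_five_nb : noC adjB 5 (nbOf 0) = true := by decide +kernel

theorem no_five_P :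
    noC adjB 5 ((List.range 416).filter fun a => inS a && decide (gOf a = 3)) = true := by
  decide +kernel

def permOK (a : ℕ) : Bool :=
  (List.range 6).all fun k => decide (permOf k a < 416) &&
    (nbOf a).all fun b => adjB (permOf k a) (permOf k b)

theorem perm_ok : (List.range 416).all permOK = true := by decide +kernel

theorem depth_ok : (List.range 416).all (fun a =>
    decide (a = 0) || (decide (stepOf a < 6) &&
      decide (depthOf (permOf (stepOf a) a) < depthOf a))) = true := by decide +kernel

end Vale.Agent.P052
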