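import Mathlib
import Vale.Agent.P052.Check

/-! From the finite checks to the graph facts. -/

namespace Vale.Agent.P052

open Finset

abbrev V := Fin 416

abbrev Adj (a b : V) : Prop := adjB a.val b.val = true

theorem all_range {p : ℕ → Bool} (h : (List.range 416).all p = true) (a : V) : p a.val = true :=
  List.all_eq_true.1 h a.val (List.mem_range.2 a.isLt)

theorem nb_data (a : V) :
    ((nbOf a.val).map fun b => 2 ^ b).sum = bitsOf a.val ∧ (nbOf a.val).SortedLT ∧
    (∀ b ∈ nbOf a.val, b < 416 ∧ adjB b a.val = true ∧ b ≠ a.val) ∧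
    (nbOf a.val).length = 100 := by
  have h := all_range rows_ok a
  simp only [rowOK, Bool.and_eq_true, decide_eq_true_eq, List.all_eq_true] at h
  obtain ⟨⟨⟨h1, h2⟩, h3⟩, h4⟩ := h
  refine ⟨h1, List.isChain_iff_pairwise.1 h2 |>.sortedLT, ?_, h4⟩
  intro b hb
  obtain ⟨⟨p, q⟩, r⟩ := h3 b hb
  exact ⟨p, q, r⟩

theorem mem_nb {a : V} {b : ℕ} : b ∈ nbOf a.val ↔ adjB a.val b = true := by
  obtain ⟨h1, h2, -, -⟩ := nb_data a
  have := Nat.bitIndices_sum_map_two_pow h2
  rw [h1] at this
  rw [← this, Nat.mem_bitIndices]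
  rfl

theorem nodup_nb (a : V) : (nbOf a.val).Nodup := (nb_data a).2.1.nodup

theorem adj_symm {a b : V} (h : Adj a b) : Adj b a :=
  ((nb_data a).2.2.1 b.val (mem_nb.2 h)).2.1

theorem adj_ne {a b : V} (h : Adj a b) : a ≠ b := fun e =>
  ((nb_data a).2.2.1 b.val (mem_nb.2 h)).2.2 (by rw [e])

noncomputable def al (a b : V) : ℝ := if Adj a b then 1 else 0

theorem al_symm (a b : V) : al a b = al b a := by
  unfold al
  by_cases h : Adj a b
  · rw [if_pos h, if_pos (adj_symm h)]
  · rw [if_neg h, if_neg (fun h' => h (adj_symm h'))]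

/-- A sum over neighbours as a list sum. -/
theorem sum_al (a : V) (f : ℕ → ℝ) : ∑ b : V, al a b * f b.val = ((nbOf a.val).map f).sum := by
  have e : ((nbOf a.val).map f).sum = ∑ b ∈ (nbOf a.val).toFinset, f b := by
    rw [List.sum_toFinset _ (nodup_nb a)]
  rw [e]
  have : (nbOf a.val).toFinset = (Finset.range 416).filter fun b => adjB a.val b = true := by
    ext b
    simp only [List.mem_toFinset, Finset.mem_filter, Finset.mem_range]
    exact ⟨fun h => ⟨((nb_data a).2.2.1 b h).1, mem_nb.1 h⟩, fun h => mem_nb.2 h.2⟩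
  rw [this, Finset.sum_filter, Finset.sum_range]
  refine Finset.sum_congr rfl fun b _ => ?_
  unfold al Adj
  split <;> simp

theorem al_deg (a : V) : ∑ b : V, al a b = 100 := by
  have := sum_al a (fun _ => 1)
  rw [List.map_const', List.sum_replicate, (nb_data a).2.2.2] at this
  simp only [mul_one, nsmul_eq_mul] at this
  exact this.trans (by norm_num)

theorem sum_map_range (f : ℕ → ℤ) (g : ℕ → ℝ) (h : ∀ b, g b = (f b : ℝ)) :
    ∑ b : V, g b.val = (((List.range 416).map f).sum : ℝ) := by
  rw [← List.sum_toFinset f List.nodup_range, Finset.sum_fin_eq_sum_range]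
  simp only [List.toFinset_range, Int.cast_sum]
  exact Finset.sum_congr rfl fun b hb => by simp [Finset.mem_range.1 hb, h]

theorem eig_cast (a : V) (f : ℕ → ℤ) (h : ((nbOf a.val).map f).sum = 20 * f a.val) :
    ∑ b : V, al a b * (f b.val : ℝ) = 20 * (f a.val : ℝ) := by
  rw [sum_al a fun b => (f b : ℝ)]
  have e : ∀ l : List ℕ, (l.map fun b => (f b : ℝ)).sum = (((l.map f).sum : ℤ) : ℝ) := by
    intro l; induction l with
    | nil => simp
    | cons x l ih => simp only [List.map_cons, List.sum_cons, ih, Int.cast_add]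
  rw [e, h]; push_cast; ring

/-- Uniqueness of base-256 digits. -/
theorem digit_unique : ∀ (n : ℕ) (x y : ℕ → ℕ), (∀ i < n, x i < 256) → (∀ i < n, y i < 256) →
    ∑ i ∈ range n, x i * 256 ^ i = ∑ i ∈ range n, y i * 256 ^ i → ∀ i < n, x i = y i := by
  intro n
  induction n with
  | zero => intro x y _ _ _ i hi; omega
  | succ n ih =>
    intro x y hx hy h
    have key : ∀ z : ℕ → ℕ, ∑ i ∈ range (n + 1), z i * 256 ^ i
        = z 0 + 256 * ∑ i ∈ range n, z (i + 1) * 256 ^ i := by
      intro z
      rw [Finset.sum_range_succ', Finset.mul_sum, pow_zero, mul_one, add_comm]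
      congr 1
      exact Finset.sum_congr rfl fun i _ => by ring
    rw [key, key] at h
    have h0 : x 0 = y 0 := by
      have := congrArg (· % 256) h
      simpa [Nat.add_mul_mod_self_left, Nat.mod_eq_of_lt (hx 0 (by omega)),
        Nat.mod_eq_of_lt (hy 0 (by omega))] using this
    have h' := ih (fun i => x (i + 1)) (fun i => y (i + 1)) (fun i hi => hx _ (by omega))
      (fun i hi => hy _ (by omega)) (by omega)
    intro i hi
    rcases i with - | i
    · exact h0
    · exact h' i (by omega)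

theorem ones (n : ℕ) : ∑ i ∈ range n, 256 ^ i = ((256 : ℕ) ^ n - 1) / 255 :=
  Nat.geomSum_eq (by norm_num) n

theorem al_sq (a b : V) :
    ∑ c : V, al a c * al c b = 80 * (if a = b then 1 else 0) + 16 * al a b + 20 := by
  classical
  let d : ℕ → ℕ → ℕ := fun c i => if adjB c i = true then 1 else 0
  have dec : ∀ c : V, spreadOf c.val = ∑ i ∈ range 416, d c.val i * 256 ^ i := by
    intro c
    have h := all_range sq_ok c
    simp only [sqOK, Bool.and_eq_true, decide_eq_true_eq] at h
    rw [← h.1, ← List.sum_toFinset _ (nodup_nb c)]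
    simp only [d, ite_mul, one_mul, zero_mul]
    rw [← Finset.sum_filter]
    refine Finset.sum_congr ?_ fun _ _ => rfl
    ext i
    simp only [List.mem_toFinset, Finset.mem_filter, Finset.mem_range]
    exact ⟨fun h => ⟨((nb_data c).2.2.1 i h).1, mem_nb.1 h⟩, fun h => mem_nb.2 h.2⟩
  have h := all_range sq_ok a
  simp only [sqOK, Bool.and_eq_true, decide_eq_true_eq] at h
  have h2 := h.2
  rw [← List.sum_toFinset _ (nodup_nb a), dec a, ← ones 416] at h2
  have hl : ∑ c ∈ (nbOf a.val).toFinset, spreadOf c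
      = ∑ i ∈ range 416, (∑ c ∈ (nbOf a.val).toFinset, d c i) * 256 ^ i := by
    simp only [Finset.sum_mul]
    rw [Finset.sum_comm]
    refine Finset.sum_congr rfl fun c hc => ?_
    exact dec ⟨c, ((nb_data a).2.2.1 c (List.mem_toFinset.1 hc)).1⟩
  have hr : 80 * 256 ^ a.val + 16 * (∑ i ∈ range 416, d a.val i * 256 ^ i)
      + 20 * ∑ i ∈ range 416, 256 ^ i
      = ∑ i ∈ range 416, (80 * (if a.val = i then 1 else 0) + 16 * d a.val i + 20) * 256 ^ i := by
    simp only [add_mul, Finset.sum_add_distrib, Finset.mul_sum, mul_assoc]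
    simp [ite_mul, Finset.sum_ite_eq, a.isLt]
  rw [hl, hr] at h2
  clear h
  have hd : ∀ c i, d c i ≤ 1 := fun c i => by simp only [d]; split <;> omega
  have := digit_unique 416 _ _ (fun i _ => by
      have h1 : ∑ c ∈ (nbOf a.val).toFinset, d c i ≤ ∑ _c ∈ (nbOf a.val).toFinset, 1 :=
        Finset.sum_le_sum fun c _ => hd c i
      rw [Finset.sum_const, smul_eq_mul, mul_one, List.toFinset_card_of_nodup (nodup_nb a),
        (nb_data a).2.2.2] at h1
      omega)
    (fun i _ => by
      have := hd a.val i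
      by_cases e : a.val = i
      · rw [if_pos e]; omega
      · rw [if_neg e]; omega) h2 b.val b.isLt
  have e1 : ∑ c : V, al a c * al c b = ((∑ c ∈ (nbOf a.val).toFinset, d c b.val : ℕ) : ℝ) := by
    refine Eq.trans (Eq.trans ?_ (sum_al a fun c => (d c b.val : ℝ))) ?_
    · refine Finset.sum_congr rfl fun c _ => ?_
      refine congrArg (fun t => al a c * t) ?_
      simp only [d]
      unfold al Adj
      by_cases e : adjB c.val b.val = true
      · rw [if_pos e, if_pos e, Nat.cast_one]
      · rw [if_neg e, if_neg e, Nat.cast_zero]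
    · exact (List.sum_toFinset (fun c => (d c b.val : ℝ)) (nodup_nb a)).symm.trans
        (Nat.cast_sum (R := ℝ) (nbOf a.val).toFinset (fun c => d c b.val)).symm
  rw [e1, this]
  simp only [d, al, Adj, Fin.ext_iff]
  push_cast
  rfl

theorem allSuf_spec (f : ℕ → List ℕ → Bool) : ∀ {l : List ℕ}, noC.allSuf l f = true →
    ∀ {T : Finset ℕ}, T.Nonempty → (∀ x ∈ T, x ∈ l) →
      ∃ v r, v ∈ T ∧ f v r = true ∧ ∀ x ∈ T, x ≠ v → x ∈ r := by
  intro l
  induction l with
  | nil => intro _ T hT hs; obtain ⟨x, hx⟩ := hT; exact absurd (hs x hx) (by simp)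
  | cons v r ih =>
    intro h T hT hs
    simp only [noC.allSuf, Bool.and_eq_true] at h
    by_cases hv : v ∈ T
    · exact ⟨v, r, hv, h.1, fun x hx hxv => (List.mem_cons.1 (hs x hx)).resolve_left hxv⟩
    · refine ih h.2 hT fun x hx => (List.mem_cons.1 (hs x hx)).resolve_left ?_
      exact fun e => hv (e ▸ hx)

theorem noC_spec : ∀ {k : ℕ} {l : List ℕ}, noC adjB k l = true →
    ∀ T : Finset ℕ, (∀ x ∈ T, x ∈ l) → (∀ x ∈ T, ∀ y ∈ T, x ≠ y → adjB x y = true) → T.card ≠ k := by
  intro k
  induction k with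
  | zero => intro l h; simp [noC] at h
  | succ k ih =>
    intro l h T hs hp hc
    simp only [noC] at h
    obtain ⟨v, r, hv, hf, hr⟩ := allSuf_spec _ h (Finset.card_pos.1 (by omega)) hs
    refine ih hf (T.erase v) (fun x hx => ?_) (fun x hx y hy => hp x (Finset.mem_of_mem_erase hx) y
      (Finset.mem_of_mem_erase hy)) (by rw [Finset.card_erase_of_mem hv]; omega)
    obtain ⟨hxv, hxT⟩ := Finset.mem_erase.1 hx
    exact List.mem_filter.2 ⟨hr x hxT hxv, hp v hv x hxT (Ne.symm hxv)⟩

def Clique (T : Finset V) : Prop := ∀ a ∈ T, ∀ b ∈ T, a ≠ b → Adj a b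

theorem clique_nat {T : Finset V} (h : Clique T) :
    ∀ x ∈ T.map Fin.valEmbedding, ∀ y ∈ T.map Fin.valEmbedding, x ≠ y → adjB x y = true := by
  intro x hx y hy hxy
  obtain ⟨a, ha, rfl⟩ := Finset.mem_map.1 hx
  obtain ⟨b, hb, rfl⟩ := Finset.mem_map.1 hy
  exact h a ha b hb fun e => hxy (by rw [e])

theorem card_clique {T : Finset V} (hT : Clique T) : T.card ≤ 5 := by
  classical
  by_contra hc
  obtain ⟨U, hUT, hU⟩ := Finset.exists_subset_card_eq (show 6 ≤ T.card by omega)
  have hUc : Clique U := fun a ha b hb => hT a (hUT ha) b (hUT hb)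
  obtain ⟨a, ha⟩ := Finset.card_pos.1 (show 0 < U.card by omega)
  suffices ∀ d, ∀ a : V, depthOf a.val ≤ d → ∀ U : Finset V, a ∈ U → Clique U → U.card ≠ 6 from
    this _ a le_rfl U ha hUc hU
  intro d
  induction d using Nat.strong_induction_on with
  | _ d ih =>
    intro a had U ha hUc hU
    by_cases h0 : a.val = 0
    · refine noC_spec no_five_nb ((U.erase a).map Fin.valEmbedding) (fun x hx => ?_)
        (clique_nat fun p hp q hq => hUc p (Finset.mem_of_mem_erase hp) q (Finset.mem_of_mem_erase hq))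
        (by rw [Finset.card_map, Finset.card_erase_of_mem ha, hU])
      obtain ⟨b, hb, rfl⟩ := Finset.mem_map.1 hx
      obtain ⟨hba, hbU⟩ := Finset.mem_erase.1 hb
      have := mem_nb.2 (hUc a ha b hbU (Ne.symm hba))
      rwa [h0] at this
    · have h := all_range depth_ok a
      simp only [Bool.or_eq_true, decide_eq_true_eq, h0, false_or, Bool.and_eq_true] at h
      obtain ⟨hk, hd⟩ := h
      have pk : ∀ b : V, permOf (stepOf a.val) b.val < 416 ∧
          ∀ c ∈ nbOf b.val, adjB (permOf (stepOf a.val) b.val) (permOf (stepOf a.val) c) = true := by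
        intro b
        have := all_range perm_ok b
        simp only [permOK, List.all_eq_true, List.mem_range] at this
        have := this _ hk
        simpa [Bool.and_eq_true, decide_eq_true_eq, List.all_eq_true] using this
      let π : V → V := fun b => ⟨permOf (stepOf a.val) b.val, (pk b).1⟩
      have hom : ∀ b c, Adj b c → Adj (π b) (π c) := fun b c h => (pk b).2 c.val (mem_nb.2 h)
      have inj : Set.InjOn π U := by
        intro b hb c hc e
        by_contra ne
        exact adj_ne (hom b c (hUc b hb c hc ne)) e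
      refine ih _ (lt_of_lt_of_le hd had) (π a) le_rfl (U.image π) (Finset.mem_image_of_mem _ ha) ?_
        (by rw [Finset.card_image_of_injOn inj, hU])
      intro x hx y hy hxy
      obtain ⟨b, hb, rfl⟩ := Finset.mem_image.1 hx
      obtain ⟨c, hc, rfl⟩ := Finset.mem_image.1 hy
      exact hom b c (hUc b hb c hc fun e => hxy (by rw [e]))

theorem card_clique_P {T : Finset V} (hT : Clique T)
    (hP : ∀ a ∈ T, inS a.val = true ∧ gOf a.val = 3) : T.card ≤ 4 := by
  by_contra hc
  obtain ⟨U, hUT, hU⟩ := Finset.exists_subset_card_eq (show 5 ≤ T.card by omega)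
  refine noC_spec no_five_P (U.map Fin.valEmbedding) (fun x hx => ?_)
    (clique_nat fun a ha b hb => hT a (hUT ha) b (hUT hb)) (by rw [Finset.card_map, hU])
  obtain ⟨a, ha, rfl⟩ := Finset.mem_map.1 hx
  obtain ⟨h1, h2⟩ := hP a (hUT ha)
  exact List.mem_filter.2 ⟨List.mem_range.2 a.isLt, by simp [h1, h2]⟩

end Vale.Agent.P052
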