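import Mathlib
import Vale.Agent.P052.Graph

/-! The 321 points and the 63-dimensional subspace. -/

namespace Vale.Agent.P052

open Finset
open scoped RealInnerProductSpace

abbrev E := EuclideanSpace ℝ V

noncomputable def dl (a b : V) : ℝ := if a = b then 1 else 0

noncomputable def M : Matrix V V ℝ := fun a b => 4 * al a b + 16 * dl a b - 1

theorem M_symm (a b : V) : M a b = M b a := by
  unfold M dl
  rw [al_symm a b]
  by_cases h : a = b
  · subst h; rfl
  · rw [if_neg h, if_neg (Ne.symm h)]

theorem M_sq (a b : V) : ∑ c, M a c * M c b = 96 * M a b := by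
  have e : ∀ c, M a c * M c b = 16 * (al a c * al c b) + 64 * (al a c * dl c b) - 4 * al a c
      + 64 * (dl a c * al c b) + 256 * (dl a c * dl c b) - 16 * dl a c - 4 * al b c - 16 * dl c b + 1 := by
    intro c; unfold M; rw [al_symm b c]; ring
  have d1 : ∀ f : V → ℝ, ∀ x, ∑ c, f c * dl c x = f x := fun f x => by
    simp [dl, mul_ite]
  have d2 : ∀ f : V → ℝ, ∀ x, ∑ c, dl x c * f c = f x := fun f x => by
    simp [dl, ite_mul]
  have d3 : ∀ x, ∑ c, dl c x = 1 := fun x => by simp [dl]
  have d4 : ∀ x, ∑ c, dl x c = 1 := fun x => by simp [dl]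
  simp only [e, Finset.sum_add_distrib, Finset.sum_sub_distrib, ← Finset.mul_sum, al_sq, al_deg,
    d1 (fun c => al a c), d2 (fun c => al c b), d1 (fun c => dl a c), d3, d4]
  simp only [Finset.sum_const, Finset.card_univ, Fintype.card_fin, nsmul_eq_mul]
  unfold M dl
  ring

theorem M_eig (u : V → ℝ) (h : ∀ a, ∑ b, al a b * u b = 20 * u a) (h0 : ∑ b, u b = 0) (a : V) :
    ∑ b, M a b * u b = 96 * u a := by
  have e : ∀ b, M a b * u b = 4 * (al a b * u b) + 16 * (dl a b * u b) - u b := by
    intro b; unfold M; ring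
  simp only [e, Finset.sum_add_distrib, Finset.sum_sub_distrib, ← Finset.mul_sum, h, h0]
  simp [dl, ite_mul]
  ring

noncomputable def T : E →ₗ[ℝ] E := Matrix.toEuclideanLin M

theorem T_apply (x : E) (a : V) : T x a = ∑ b, M a b * x b := by
  simp [T, Matrix.toEuclideanLin, Matrix.mulVec, dotProduct]

theorem T_T (x : E) : T (T x) = (96 : ℝ) • T x := by
  ext a
  rw [PiLp.smul_apply, smul_eq_mul, T_apply, T_apply]
  simp only [T_apply, Finset.mul_sum]
  rw [Finset.sum_comm]
  refine Finset.sum_congr rfl fun c _ => ?_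
  rw [← mul_assoc, ← M_sq, Finset.sum_mul]
  exact Finset.sum_congr rfl fun b _ => by ring

theorem finrank_range_T : Module.finrank ℝ (LinearMap.range T) = 65 := by
  have hp : LinearMap.IsProj (LinearMap.range T) ((1 / 96 : ℝ) • T) := by
    refine ⟨fun x => ⟨(1 / 96 : ℝ) • x, by rw [map_smul]; rfl⟩, ?_⟩
    rintro x ⟨y, rfl⟩
    rw [LinearMap.smul_apply, T_T, smul_smul]
    norm_num
  have h := hp.trace
  rw [map_smul, LinearMap.trace_eq_matrix_trace ℝ (EuclideanSpace.basisFun V ℝ).toBasis,
    show LinearMap.toMatrix (EuclideanSpace.basisFun V ℝ).toBasis (EuclideanSpace.basisFun V ℝ).toBasis T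
      = M from by
        rw [T, Matrix.toEuclideanLin_eq_toLin_orthonormal, LinearMap.toMatrix_toLin]] at h
  have tr : Matrix.trace M = 416 * 15 := by
    have : ∀ a, M a a = 15 := by
      intro a
      have : al a a = 0 := if_neg fun h => adj_ne h rfl
      unfold M dl
      rw [this, if_pos rfl]
      norm_num
    simp [Matrix.trace, Matrix.diag, this]
  rw [tr, smul_eq_mul] at h
  norm_num at h
  exact_mod_cast h.symm

noncomputable def vec (f : ℕ → ℤ) : E := WithLp.toLp 2 fun a : V => (f a.val : ℝ)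

theorem vec_apply (f : ℕ → ℤ) (a : V) : vec f a = (f a.val : ℝ) := rfl

theorem T_vec (f : ℕ → ℤ) (h : ∀ a : V, ((nbOf a.val).map f).sum = 20 * f a.val)
    (h0 : ((List.range 416).map f).sum = 0) : T (vec f) = (96 : ℝ) • vec f := by
  ext a
  rw [T_apply, PiLp.smul_apply, smul_eq_mul]
  simp only [vec_apply]
  refine M_eig (fun b => (f b.val : ℝ)) (fun c => eig_cast c f (h c)) ?_ a
  rw [sum_map_range f (fun b => (f b : ℝ)) fun _ => rfl, h0, Int.cast_zero]

theorem mem_range_vec (f : ℕ → ℤ) (h : T (vec f) = (96 : ℝ) • vec f) : vec f ∈ LinearMap.range T :=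
  ⟨(1 / 96 : ℝ) • vec f, by rw [map_smul, h, smul_smul]; norm_num⟩

theorem inner_vec (f g : ℕ → ℤ) :
    ⟪vec f, vec g⟫ = (((List.range 416).map fun a => f a * g a).sum : ℝ) := by
  rw [← sum_map_range (fun a => f a * g a) (fun a => (f a : ℝ) * (g a : ℝ)) (fun a => by push_cast; rfl)]
  simp [PiLp.inner_apply, vec_apply, mul_comm]

noncomputable def X (a : V) : E := WithLp.toLp 2 fun b : V => M a b

theorem X_mem (a : V) : X a ∈ LinearMap.range T := by
  refine ⟨EuclideanSpace.single a 1, ?_⟩
  ext b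
  rw [T_apply]
  simp [X, M_symm a b, mul_ite]

theorem inner_X (a b : V) : ⟪X a, X b⟫ = 96 * M a b := by
  rw [← M_sq]
  simp only [PiLp.inner_apply, X, RCLike.inner_apply, conj_trivial]
  exact Finset.sum_congr rfl fun c _ => by rw [M_symm c b]; ring

theorem inner_X_vec (a : V) (f : ℕ → ℤ) (h : T (vec f) = (96 : ℝ) • vec f) :
    ⟪X a, vec f⟫ = 96 * (f a.val : ℝ) := by
  have := congrArg (fun x : E => x a) h
  simp only [T_apply, PiLp.smul_apply, smul_eq_mul, vec_apply] at this
  rw [← this]
  simp only [PiLp.inner_apply, X, RCLike.inner_apply, conj_trivial, vec_apply]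
  exact Finset.sum_congr rfl fun c _ => mul_comm _ _

theorem eig_data (a : V) : ((nbOf a.val).map gOf).sum = 20 * gOf a.val ∧
    ((nbOf a.val).map w1Of).sum = 20 * w1Of a.val ∧ ((nbOf a.val).map w2Of).sum = 20 * w2Of a.val := by
  have h := all_range eig_ok a
  simp only [eigOK, Bool.and_eq_true, decide_eq_true_eq] at h
  exact ⟨h.1.1, h.1.2, h.2⟩

theorem T_g : T (vec gOf) = (96 : ℝ) • vec gOf := T_vec _ (fun a => (eig_data a).1) sum_g
theorem T_w1 : T (vec w1Of) = (96 : ℝ) • vec w1Of := T_vec _ (fun a => (eig_data a).2.1) sum_w1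
theorem T_w2 : T (vec w2Of) = (96 : ℝ) • vec w2Of := T_vec _ (fun a => (eig_data a).2.2) sum_w2

noncomputable def W2 : Submodule ℝ E := Submodule.span ℝ (Set.range ![vec w1Of, vec w2Of])

noncomputable def W : Submodule ℝ E := W2ᗮ ⊓ LinearMap.range T

theorem finrank_W : Module.finrank ℝ W = 63 := by
  have hli : LinearIndependent ℝ ![vec w1Of, vec w2Of] := by
    obtain ⟨h1, h2⟩ := indep_w
    simp only [List.any_eq_true, List.mem_range, Bool.and_eq_true, decide_eq_true_eq] at h1 h2
    obtain ⟨a, ha, ha1, ha2⟩ := h1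
    obtain ⟨b, hb, hb2⟩ := h2
    rw [LinearIndependent.pair_iff]
    intro s t h
    have hs : s = 0 := by
      have := congrArg (fun x : E => x ⟨a, ha⟩) h
      simpa [vec_apply, ha2, ha1] using this
    refine ⟨hs, ?_⟩
    have := congrArg (fun x : E => x ⟨b, hb⟩) h
    simpa [vec_apply, hs, hb2] using this
  have h2 : Module.finrank ℝ W2 = 2 := by
    rw [W2, finrank_span_eq_card hli]; rfl
  have hle : W2 ≤ LinearMap.range T := by
    rw [W2, Submodule.span_le]
    rintro x ⟨i, rfl⟩
    fin_cases i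
    · exact mem_range_vec _ T_w1
    · exact mem_range_vec _ T_w2
  have := Submodule.finrank_add_inf_finrank_orthogonal hle
  rw [h2, finrank_range_T] at this
  unfold W
  omega

theorem mem_W {x : E} (hx : x ∈ LinearMap.range T) (h1 : ⟪x, vec w1Of⟫ = 0) (h2 : ⟪x, vec w2Of⟫ = 0) :
    x ∈ W := by
  refine ⟨(W2.mem_orthogonal x).2 fun u hu => ?_, hx⟩
  rw [W2] at hu
  induction hu using Submodule.span_induction with
  | mem u hu =>
    obtain ⟨i, rfl⟩ := hu
    fin_cases i
    · rw [real_inner_comm]; exact h1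
    · rw [real_inner_comm]; exact h2
  | zero => rw [inner_zero_left]
  | add u v _ _ hu hv => rw [inner_add_left, hu, hv, add_zero]
  | smul r u _ hu => rw [real_inner_smul_left, hu, mul_zero]

noncomputable def tz : ℝ := (Real.sqrt 222 - 1) / 13

theorem tz_eq : 13 * tz ^ 2 + 2 * tz = 17 := by
  have h := Real.sq_sqrt (show (0 : ℝ) ≤ 222 by norm_num)
  unfold tz
  field_simp
  nlinarith

theorem tz_pos : 0 < tz := by
  have : (1 : ℝ) < Real.sqrt 222 := by rw [Real.lt_sqrt (by norm_num)]; norm_num
  unfold tz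
  exact div_pos (by linarith) (by norm_num)

noncomputable def z : E := tz • vec gOf

theorem z_mem : z ∈ W := by
  refine Submodule.smul_mem _ _ (mem_W (mem_range_vec _ T_g) ?_ ?_)
  · rw [real_inner_comm, inner_vec, sum_gw1, Int.cast_zero]
  · rw [real_inner_comm, inner_vec, sum_gw2, Int.cast_zero]

theorem X_mem_W {a : V} (ha : inS a.val = true) : X a ∈ W := by
  simp only [inS, Bool.and_eq_true, decide_eq_true_eq] at ha
  refine mem_W (X_mem a) ?_ ?_
  · rw [inner_X_vec a _ T_w1, ha.1]; simp
  · rw [inner_X_vec a _ T_w2, ha.2]; simp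

theorem dist_X {a b : V} (hab : a ≠ b) : dist (X a) (X b) ^ 2 = 3072 - 768 * al a b := by
  rw [dist_eq_norm, norm_sub_sq_real, ← real_inner_self_eq_norm_sq, ← real_inner_self_eq_norm_sq,
    inner_X, inner_X, inner_X]
  have h : ∀ c : V, al c c = 0 := fun c => if_neg fun h => adj_ne h rfl
  unfold M dl
  rw [h, h, if_pos rfl, if_pos rfl, if_neg hab]
  ring

theorem dist_z (a : V) : dist z (X a) ^ 2 = 3072 - 192 * tz * ((gOf a.val : ℝ) + 1) := by
  rw [dist_eq_norm, norm_sub_sq_real, ← real_inner_self_eq_norm_sq, ← real_inner_self_eq_norm_sq,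
    inner_X, z, real_inner_smul_left, real_inner_smul_left, real_inner_smul_right, inner_vec,
    real_inner_comm, inner_X_vec a _ T_g]
  have h : al a a = 0 := if_neg fun h => adj_ne h rfl
  have hg : (((List.range 416).map fun a => gOf a * gOf a).sum : ℝ) = 1248 := by
    rw [sum_gg]; norm_num
  rw [hg]
  unfold M dl
  rw [h, if_pos rfl]
  linear_combination 96 * tz_eq

theorem count_cover {ι : Type} [Fintype ι] {α : Type} (p : ι → α) (F : Fin 64 → Set α)
    [∀ i, DecidablePred fun o => p o ∈ F i]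
    (hF : ∀ o, p o ∈ ⋃ i, F i) (hs : ∀ i, (Finset.univ.filter fun o => p o ∈ F i).card ≤ 5) :
    Fintype.card ι ≤ 64 * 5 := by
  classical
  choose c hc using fun o => Set.mem_iUnion.1 (hF o)
  rw [← Finset.card_univ, Finset.card_eq_sum_card_fiberwise (t := Finset.univ) (f := c)
    (fun x _ => Finset.mem_univ _)]
  refine (Finset.sum_le_sum fun i _ => (Finset.card_le_card ?_).trans (hs i)).trans (le_of_eq ?_)
  · intro o ho
    rw [Finset.mem_filter] at ho ⊢
    exact ⟨ho.1, ho.2 ▸ hc o⟩
  · rw [Finset.sum_const, Finset.card_univ, Fintype.card_fin, smul_eq_mul]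

attribute [local irreducible] inS gOf w1Of w2Of adjB z X

theorem main :
    ∃ Y : Set (EuclideanSpace ℝ (Fin 63)), Bornology.IsBounded Y ∧ 0 < Metric.diam Y ∧
      ∀ F : Fin 64 → Set (EuclideanSpace ℝ (Fin 63)), Y ⊆ ⋃ i, F i →
        ∃ i, Metric.diam Y ≤ Metric.diam (Y ∩ F i) := by
  classical
  let e : W ≃ₗᵢ[ℝ] EuclideanSpace ℝ (Fin 63) :=
    (stdOrthonormalBasis ℝ W).repr.trans
      (LinearIsometryEquiv.piLpCongrLeft 2 ℝ ℝ (finCongr finrank_W))
  let I := {a : V // inS a.val = true}
  let p : Option I → EuclideanSpace ℝ (Fin 63) := fun o =>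
    match o with
    | none => e ⟨z, z_mem⟩
    | some a => e ⟨X a.val, X_mem_W a.2⟩
  let D : ℝ := Real.sqrt 3072
  have hD : 0 < D := Real.sqrt_pos.2 (by norm_num)
  have dpp : ∀ a b : I, dist (p (some a)) (p (some b)) = dist (X a.val) (X b.val) := fun a b => by
    simp only [p]; rw [e.dist_map]; rfl
  have dzp : ∀ b : I, dist (p none) (p (some b)) = dist z (X b.val) := fun b => by
    simp only [p]; rw [e.dist_map]; rfl
  have gval : ∀ a : I, (gOf a.val.val : ℝ) = -1 ∨ (gOf a.val.val : ℝ) = 3 := by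
    intro a
    have := all_range g_on_S a.val
    simp only [a.2, Bool.not_true, Bool.false_or, decide_eq_true_eq] at this
    rcases this with h | h
    · left; rw [h]; norm_num
    · right; rw [h]; norm_num
  have le_sq : ∀ {x : ℝ}, x ^ 2 ≤ 3072 → x ≤ D := fun h => Real.le_sqrt_of_sq_le h
  have hle : ∀ o o', dist (p o) (p o') ≤ D := by
    intro o o'
    match o, o' with
    | none, none => rw [dist_self]; exact hD.le
    | none, some b =>
      rw [dzp]; apply le_sq; rw [dist_z]
      rcases gval b with h | h <;> rw [h] <;> nlinarith [tz_pos]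
    | some b, none =>
      rw [dist_comm, dzp]; apply le_sq; rw [dist_z]
      rcases gval b with h | h <;> rw [h] <;> nlinarith [tz_pos]
    | some a, some b =>
      rw [dpp]; apply le_sq
      by_cases hab : a.val = b.val
      · rw [hab, dist_self]; norm_num
      · rw [dist_X hab]
        unfold al
        split <;> norm_num
  let Y := Set.range p
  have hb : Bornology.IsBounded Y := (Set.finite_range p).isBounded
  have cardI : Fintype.card I = 320 := by
    rw [Fintype.card_subtype]
    have := card_S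
    rw [← List.toFinset_card_of_nodup (List.nodup_range.filter _)] at this
    rw [← Finset.card_map Fin.valEmbedding, ← this]
    refine congrArg Finset.card (Finset.ext fun x => ?_)
    simp only [Finset.mem_map, Finset.mem_filter, Finset.mem_univ, true_and, List.mem_toFinset,
      List.mem_filter, List.mem_range, Fin.valEmbedding_apply]
    exact ⟨fun ⟨a, ha, hx⟩ => hx ▸ ⟨a.isLt, ha⟩, fun h => ⟨⟨x, h.1⟩, h.2, rfl⟩⟩
  -- a piece of diameter less than `D` contains at most five points
  have piece : ∀ A : Set (EuclideanSpace ℝ (Fin 63)), (∀ x ∈ Y ∩ A, ∀ y ∈ Y ∩ A, dist x y < D) →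
      (Finset.univ.filter fun o : Option I => p o ∈ A).card ≤ 5 := by
    intro A hA
    let U : Finset V := (Finset.univ.filter fun a : I => p (some a) ∈ A).image Subtype.val
    have lt_sq : ∀ {x : ℝ}, 0 ≤ x → x < D → x ^ 2 < 3072 := fun h0 h =>
      (Real.lt_sqrt h0).1 h
    have hU : Clique U := by
      intro a ha b hb hab
      simp only [U, Finset.mem_image, Finset.mem_filter, Finset.mem_univ, true_and] at ha hb
      obtain ⟨a', ha', rfl⟩ := ha
      obtain ⟨b', hb', rfl⟩ := hb
      by_contra hn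
      have := lt_sq dist_nonneg (hA _ ⟨⟨some a', rfl⟩, ha'⟩ _ ⟨⟨some b', rfl⟩, hb'⟩)
      rw [dpp, dist_X hab] at this
      simp [al, hn] at this
    have hcard : U.card = (Finset.univ.filter fun a : I => p (some a) ∈ A).card :=
      Finset.card_image_of_injective _ Subtype.val_injective
    have split_none : (Finset.univ.filter fun o : Option I => p o ∈ A).card
        = (if p none ∈ A then 1 else 0) + U.card := by
      rw [hcard, Finset.card_filter, Fintype.sum_option, Finset.card_filter]
    rw [split_none]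
    by_cases hz : p none ∈ A
    · rw [if_pos hz]
      have : U.card ≤ 4 := by
        refine card_clique_P hU fun a ha => ?_
        simp only [U, Finset.mem_image, Finset.mem_filter, Finset.mem_univ, true_and] at ha
        obtain ⟨a', ha', rfl⟩ := ha
        refine ⟨a'.2, ?_⟩
        have h := lt_sq dist_nonneg (hA _ ⟨⟨none, rfl⟩, hz⟩ _ ⟨⟨some a', rfl⟩, ha'⟩)
        rw [dzp, dist_z] at h
        rcases gval a' with g | g
        · rw [g] at h; norm_num at h
        · exact_mod_cast g
      omega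
    · rw [if_neg hz]
      have := card_clique hU
      omega
  have cover : ∀ F : Fin 64 → Set (EuclideanSpace ℝ (Fin 63)), Y ⊆ ⋃ i, F i →
      ∃ i, ∃ x ∈ Y ∩ F i, ∃ y ∈ Y ∩ F i, dist x y = D := by
    intro F hF
    by_contra hc
    push Not at hc
    have hs : ∀ i, (Finset.univ.filter fun o : Option I => p o ∈ F i).card ≤ 5 := fun i =>
      piece (F i) fun x hx y hy => lt_of_le_of_ne
        (by obtain ⟨o, rfl⟩ := hx.1; obtain ⟨o', rfl⟩ := hy.1; exact hle o o') (hc i x hx y hy)
    have := count_cover p F (fun o => hF (Set.mem_range_self o)) hs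
    rw [Fintype.card_option, cardI] at this
    omega
  have hdiam : Metric.diam Y = D := by
    refine le_antisymm (Metric.diam_le_of_forall_dist_le hD.le ?_) ?_
    · rintro _ ⟨o, rfl⟩ _ ⟨o', rfl⟩; exact hle o o'
    · obtain ⟨i, x, hx, y, hy, h⟩ := cover (fun _ => Set.univ)
        (fun _ _ => Set.mem_iUnion.2 ⟨0, trivial⟩)
      exact h ▸ Metric.dist_le_diam_of_mem hb hx.1 hy.1
  refine ⟨Y, hb, hdiam ▸ hD, fun F hF => ?_⟩
  obtain ⟨i, x, hx, y, hy, h⟩ := cover F hF
  exact ⟨i, hdiam.trans h.symm ▸ Metric.dist_le_diam_of_mem (hb.subset Set.inter_subset_left) hx hy⟩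

end Vale.Agent.P052
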